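import Vale.Agent.P296C80.Defs
import Vale.Agent.P296Z.Lin

/-! Sections and vector fields in a chart. -/

set_option linter.all false

noncomputable section

namespace Vale.Agent.P296C

open Bundle Matrix Filter Set Complex VectorField Vale.Agent.P296Z
open scoped Manifold ContDiff Topology ComplexConjugate

variable {n r : ℕ} {X : Type} [TopologicalSpace X] [ChartedSpace (Cn n) X]

theorem cm_real {W : Type} [NormedAddCommGroup W] [NormedSpace ℂ W] [NormedSpace ℝ W]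
    [IsScalarTower ℝ ℂ W] {f : X → W} {s : Set X} {x : X} {k : WithTop ℕ∞}
    (h : ContMDiffWithinAt 𝓘(ℂ, Cn n) 𝓘(ℂ, W) k f s x) :
    ContMDiffWithinAt 𝓘(ℝ, Cn n) 𝓘(ℝ, W) k f s x := by
  rw [contMDiffWithinAt_iff] at h ⊢
  exact ⟨h.1, h.2.restrict_scalars ℝ⟩

theorem has_real {W : Type} [NormedAddCommGroup W] [NormedSpace ℂ W] [NormedSpace ℝ W]
    [IsScalarTower ℝ ℂ W] {f : X → W} {x : X} {f' : Cn n →L[ℂ] W}
    (h : HasMFDerivAt 𝓘(ℂ, Cn n) 𝓘(ℂ, W) f x f') :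
    HasMFDerivAt 𝓘(ℝ, Cn n) 𝓘(ℝ, W) f x (f'.restrictScalars ℝ) :=
  ⟨h.1, HasFDerivWithinAt.restrictScalars ℝ h.2⟩

theorem mv_J {W : Type} [NormedAddCommGroup W] [NormedSpace ℂ W] [NormedSpace ℝ W]
    [IsScalarTower ℝ ℂ W] {f : X → W} {x : X}
    (h : MDifferentiableAt 𝓘(ℂ, Cn n) 𝓘(ℂ, W) f x) (u : Tan n x) :
    mvfderiv 𝓘(ℝ, Cn n) f x (J n u) = I • mvfderiv 𝓘(ℝ, Cn n) f x u := by
  obtain ⟨f', hf'⟩ : ∃ f' : Cn n →L[ℂ] W, HasMFDerivAt 𝓘(ℂ, Cn n) 𝓘(ℂ, W) f x f' :=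
    ⟨_, h.hasMFDerivAt⟩
  have h1 := (has_real hf').mfderiv
  unfold mvfderiv
  rw [h1]
  exact f'.map_smul I (show Cn n from u)

/-- the differential of a chart -/
def dc (c : OpenPartialHomeomorph X (Cn n)) (x : X) : Tan n x →L[ℝ] Cn n :=
  mvfderiv 𝓘(ℝ, Cn n) c x

theorem dz_eq (c : OpenPartialHomeomorph X (Cn n)) {x : X} (v : Tan n x) (j : Fin n) :
    dz n c v j = dc c x v j := rfl

/-- a vector field in a chart -/
def vv (c : OpenPartialHomeomorph X (Cn n)) (V : ∀ x : X, Tan n x) : Cn n → Cn n :=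
  mpullback 𝓘(ℝ, Cn n) 𝓘(ℝ, Cn n) c.symm V

variable {c : OpenPartialHomeomorph X (Cn n)} {x : X}

theorem dc_J [IsManifold 𝓘(ℂ, Cn n) ω X] (hc : c ∈ atlas (Cn n) X) (hx : x ∈ c.source)
    (u : Tan n x) : dc c x (J n u) = I • dc c x u :=
  mv_J (mdifferentiableAt_atlas hc hx) u

theorem near_target (hx : x ∈ c.source) {p : X → Prop} (h : ∀ᶠ y in 𝓝 x, p y) :
    ∀ᶠ z in 𝓝 (c x), z ∈ c.target ∧ p (c.symm z) := by
  refine (c.open_target.eventually_mem (c.map_source hx)).and ?_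
  refine (c.continuousAt_symm (c.map_source hx)).eventually ?_
  rwa [c.left_inv hx]

section real

variable [IsManifold 𝓘(ℝ, Cn n) ∞ X]

theorem cm_chart (hc : c ∈ atlas (Cn n) X) (hx : x ∈ c.source) :
    ContMDiffAt 𝓘(ℝ, Cn n) 𝓘(ℝ, Cn n) ∞ c x :=
  (contMDiffOn_of_mem_maximalAtlas (IsManifold.subset_maximalAtlas hc)).contMDiffAt
    (c.open_source.mem_nhds hx)

theorem cm_symm (hc : c ∈ atlas (Cn n) X) {z : Cn n} (hz : z ∈ c.target) :
    ContMDiffAt 𝓘(ℝ, Cn n) 𝓘(ℝ, Cn n) ∞ c.symm z :=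
  (contMDiffOn_symm_of_mem_maximalAtlas (IsManifold.subset_maximalAtlas hc)).contMDiffAt
    (c.open_target.mem_nhds hz)

variable {W : Type} [NormedAddCommGroup W] [NormedSpace ℝ W] {f : X → W}

theorem comp_ev (hx : x ∈ c.source) : f =ᶠ[𝓝 x] (fun z => f (c.symm z)) ∘ c := by
  filter_upwards [c.open_source.mem_nhds hx] with y hy
  simp only [Function.comp, c.left_inv hy]

theorem cm_iff (hc : c ∈ atlas (Cn n) X) (hx : x ∈ c.source) :
    ContMDiffAt 𝓘(ℝ, Cn n) 𝓘(ℝ, W) ∞ f x ↔ ContDiffAt ℝ ∞ (fun z => f (c.symm z)) (c x) := by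
  rw [← contMDiffAt_iff_contDiffAt]
  refine ⟨fun h => ?_, fun h => (h.comp x (cm_chart hc hx)).congr_of_eventuallyEq (comp_ev hx)⟩
  refine ContMDiffAt.comp (c x) (g := f) ?_ (cm_symm hc (c.map_source hx))
  rwa [c.left_inv hx]

theorem md_iff (hc : c ∈ atlas (Cn n) X) (hx : x ∈ c.source) :
    MDifferentiableAt 𝓘(ℝ, Cn n) 𝓘(ℝ, W) f x ↔
      DifferentiableAt ℝ (fun z => f (c.symm z)) (c x) := by
  rw [← mdifferentiableAt_iff_differentiableAt]
  refine ⟨fun h => ?_, fun h => (h.comp x (mdifferentiableAt_atlas hc hx)).congr_of_eventuallyEq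
    (comp_ev hx)⟩
  refine MDifferentiableAt.comp (c x) (g := f) ?_
    (mdifferentiableAt_atlas_symm hc (c.map_source hx))
  rwa [c.left_inv hx]

theorem mv_chart (hc : c ∈ atlas (Cn n) X) (hx : x ∈ c.source)
    (h : MDifferentiableAt 𝓘(ℝ, Cn n) 𝓘(ℝ, W) f x) (u : Tan n x) :
    mvfderiv 𝓘(ℝ, Cn n) f x u = fderiv ℝ (fun z => f (c.symm z)) (c x) (dc c x u) := by
  have h1 := ((md_iff hc hx).1 h).hasFDerivAt.hasMFDerivAt.comp x
    (mdifferentiableAt_atlas (I := 𝓘(ℝ, Cn n)) hc hx).hasMFDerivAt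
  have h2 := (h1.congr_of_eventuallyEq (comp_ev hx)).mfderiv
  unfold mvfderiv
  rw [h2]
  rfl

theorem dc_bij (hc : c ∈ atlas (Cn n) X) (hx : x ∈ c.source) : Function.Bijective (dc c x) :=
  (mdifferentiable_of_mem_atlas (I := 𝓘(ℝ, Cn n)) hc).mfderiv_bijective hx

theorem inv_symm (hc : c ∈ atlas (Cn n) X) {z : Cn n} (hz : z ∈ c.target) :
    (mfderiv 𝓘(ℝ, Cn n) 𝓘(ℝ, Cn n) c.symm z).IsInvertible :=
  ⟨(mdifferentiable_of_mem_atlas (I := 𝓘(ℝ, Cn n)) hc).symm.mfderiv hz, rfl⟩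

theorem inv_chart (hc : c ∈ atlas (Cn n) X) (hx : x ∈ c.source) :
    (mfderiv 𝓘(ℝ, Cn n) 𝓘(ℝ, Cn n) c x).IsInvertible :=
  ⟨(mdifferentiable_of_mem_atlas (I := 𝓘(ℝ, Cn n)) hc).mfderiv hx, rfl⟩

theorem vv_symm (hc : c ∈ atlas (Cn n) X) {z : Cn n} (hz : z ∈ c.target) (V : ∀ x : X, Tan n x) :
    vv c V z = dc c (c.symm z) (V (c.symm z)) := by
  have h := (mdifferentiable_of_mem_atlas (I := 𝓘(ℝ, Cn n)) hc).comp_symm_deriv hz
  have h1 := (inv_symm hc hz).self_apply_inverse (V (c.symm z))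
  exact (DFunLike.congr_fun h (vv c V z)).symm.trans (congrArg (dc c (c.symm z)) h1)

theorem vv_at (hc : c ∈ atlas (Cn n) X) (hx : x ∈ c.source) (V : ∀ x : X, Tan n x) :
    vv c V (c x) = dc c x (V x) := by
  rw [vv_symm hc (c.map_source hx)]
  exact congrArg (fun y => dc c y (V y)) (c.left_inv hx)

theorem vv_smooth (hc : c ∈ atlas (Cn n) X) (hx : x ∈ c.source) {V : ∀ x : X, Tan n x}
    (hV : SmoothField n V x) : ContDiffAt ℝ ∞ (vv c V) (c x) := by
  refine contMDiffAt_vectorSpace_iff_contDiffAt.1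
    (ContMDiffAt.mpullback_vectorField_preimage (n := ∞) ?_ (cm_symm hc (c.map_source hx))
      (inv_symm hc (c.map_source hx)) (by norm_cast))
  rw [c.left_inv hx]
  exact hV

theorem vv_bracket (hc : c ∈ atlas (Cn n) X) (hx : x ∈ c.source) {V W : ∀ x : X, Tan n x}
    (hV : SmoothField n V x) (hW : SmoothField n W x) :
    dc c x (mlieBracket 𝓘(ℝ, Cn n) V W x) = lieBracket ℝ (vv c V) (vv c W) (c x) := by
  rw [← vv_at hc hx]
  haveI : IsManifold 𝓘(ℝ, Cn n) (minSmoothness ℝ 2) X :=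
    IsManifold.of_le (n := ∞) (by simp; norm_cast)
  have h := mpullback_mlieBracket (I := 𝓘(ℝ, Cn n)) (I' := 𝓘(ℝ, Cn n)) (f := c.symm) (V := V)
    (W := W) (x₀ := c x) (n := ∞)
    (by rw [c.left_inv hx]; exact ContMDiffAt.mdifferentiableAt hV (by simp))
    (by rw [c.left_inv hx]; exact ContMDiffAt.mdifferentiableAt hW (by simp))
    (cm_symm hc (c.map_source hx)) (by simp; norm_cast)
  refine h.trans ?_
  rw [← mlieBracketWithin_univ, mlieBracketWithin_eq_lieBracketWithin]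
  exact congrFun (lieBracketWithin_univ (𝕜 := ℝ) (V := vv c V) (W := vv c W)) (c x)

theorem exists_field (u : Tan n x) : ∃ V : ∀ x : X, Tan n x, SmoothField n V x ∧ V x = u := by
  have hc := chart_mem_atlas (Cn n) x
  have hx := mem_chart_source (Cn n) x
  refine ⟨mpullback 𝓘(ℝ, Cn n) 𝓘(ℝ, Cn n) (chartAt (Cn n) x)
    (fun _ => dc (chartAt (Cn n) x) x u), ?_, (inv_chart hc hx).inverse_apply_self u⟩
  exact ContMDiffAt.mpullback_vectorField_preimage (n := ∞)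
    (contMDiffAt_vectorSpace_iff_contDiffAt.2 contDiffAt_const) (cm_chart hc hx)
    (inv_chart hc hx) (by norm_cast)

end real

variable {E : X → Type} [∀ x, AddCommGroup (E x)] [∀ x, Module ℂ (E x)]
  [∀ x, TopologicalSpace (E x)] [TopologicalSpace (TotalSpace (Cn r) E)] [FiberBundle (Cn r) E]
  [VectorBundle ℂ (Cn r) E]

theorem isLinear_real (t : Trivialization (Cn r) (π (Cn r) E)) [MemTrivializationAtlas t] :
    t.IsLinear ℝ :=
  ⟨fun b hb => ⟨(t.linear ℂ hb).1, fun a v => by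
    have h := (t.linear ℂ hb).2 (a : ℂ) v
    refine h.trans ?_
    funext j
    simp⟩⟩

theorem coord_real (t t' : Trivialization (Cn r) (π (Cn r) E)) [MemTrivializationAtlas t]
    [MemTrivializationAtlas t'] [t.IsLinear ℝ] [t'.IsLinear ℝ] {b : X}
    (hb : b ∈ t.baseSet ∩ t'.baseSet) : (t.coordChangeL ℝ t' b : Cn r →L[ℝ] Cn r) =
      ContinuousLinearMap.restrictScalarsL ℂ (Cn r) (Cn r) ℝ ℝ (t.coordChangeL ℂ t' b) := by
  ext1 v
  rw [ContinuousLinearEquiv.coe_coe, Trivialization.coordChangeL_apply _ _ hb]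
  exact (Trivialization.coordChangeL_apply (R := ℂ) _ _ hb v).symm

variable (r E) in
theorem vb_real : VectorBundle ℝ (Cn r) E where
  trivialization_linear' t _ := isLinear_real t
  continuousOn_coordChange' t t' _ _ := by
    haveI := isLinear_real t
    haveI := isLinear_real t'
    refine ContinuousOn.congr ?_ fun b hb => coord_real t t' hb
    exact (ContinuousLinearMap.continuous _).comp_continuousOn (continuousOn_coordChange ℂ t t')

variable (n r E) in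
theorem cvb_real [ContMDiffVectorBundle ω (Cn r) E 𝓘(ℂ, Cn n)] [VectorBundle ℝ (Cn r) E] :
    ContMDiffVectorBundle ∞ (Cn r) E 𝓘(ℝ, Cn n) where
  contMDiffOn_coordChangeL t t' _ _ := by
    refine ContMDiffOn.congr ?_ fun b hb => coord_real t t' hb
    refine (ContinuousLinearMap.contMDiff _).comp_contMDiffOn fun b hb => ?_
    exact (cm_real (contMDiffOn_coordChangeL (IB := 𝓘(ℂ, Cn n)) (n := ω) t t' b hb)).of_le le_top

/-- a section in a chart and a frame -/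
def SS (c : OpenPartialHomeomorph X (Cn n)) (t : Trivialization (Cn r) (π (Cn r) E))
    (s : ∀ x, E x) (z : Cn n) : Cn r := (t ⟨c.symm z, s (c.symm z)⟩).2

/-- real differentiability of a section -/
def MD (n r : ℕ) [ChartedSpace (Cn n) X] [TopologicalSpace (TotalSpace (Cn r) E)]
    [FiberBundle (Cn r) E] (s : ∀ x, E x) (x : X) : Prop :=
  MDifferentiableAt 𝓘(ℝ, Cn n) (𝓘(ℝ, Cn n).prod 𝓘(ℝ, Cn r))
    (fun y => TotalSpace.mk' (Cn r) y (s y)) x

theorem SmoothSec.md {s : ∀ x, E x} (h : SmoothSec n r s x) : MD n r s x :=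
  ContMDiffAt.mdifferentiableAt h (by simp)

variable {t : Trivialization (Cn r) (π (Cn r) E)} [MemTrivializationAtlas t]

theorem SS_at (hx : x ∈ c.source) (ht : x ∈ t.baseSet) (s : ∀ x, E x) :
    SS c t s (c x) = t.linearMapAt ℂ x (s x) := by
  rw [t.coe_linearMapAt_of_mem ht]
  exact congrArg (fun y => (t ⟨y, s y⟩).2) (c.left_inv hx)

theorem lin_inj (ht : x ∈ t.baseSet) : Function.Injective (t.linearMapAt ℂ x) :=
  Function.LeftInverse.injective (t.symmₗ_linearMapAt ht)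

theorem near_dom (hx : x ∈ c.source) (ht : x ∈ t.baseSet) : ∀ᶠ z in 𝓝 (c x), z ∈ dom c t :=
  (isOpen_dom c t).eventually_mem (mem_dom hx ht)

theorem SS_symm (hx : x ∈ c.source) (ht : x ∈ t.baseSet) (u : Cn r) :
    SS c t (fun y => t.symm y u) =ᶠ[𝓝 (c x)] fun _ => u := by
  filter_upwards [near_dom hx ht] with z hz
  exact congrArg Prod.snd (t.apply_mk_symm hz.2 u)

variable [IsManifold 𝓘(ℝ, Cn n) ∞ X] [ContMDiffVectorBundle ω (Cn r) E 𝓘(ℂ, Cn n)]

theorem sm_iff (hc : c ∈ atlas (Cn n) X) (hx : x ∈ c.source) (ht : x ∈ t.baseSet) {s : ∀ x, E x} :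
    SmoothSec n r s x ↔ ContDiffAt ℝ ∞ (SS c t s) (c x) := by
  haveI := vb_real r E
  haveI := cvb_real n r E
  exact (t.contMDiffAt_section_iff ht).trans (cm_iff hc hx)

theorem md_triv (ht : x ∈ t.baseSet) {s : ∀ x, E x} :
    MD n r s x ↔ MDifferentiableAt 𝓘(ℝ, Cn n) 𝓘(ℝ, Cn r) (fun y => (t ⟨y, s y⟩).2) x := by
  haveI := vb_real r E
  haveI := cvb_real n r E
  haveI : ContMDiffVectorBundle 1 (Cn r) E 𝓘(ℝ, Cn n) :=
    ContMDiffVectorBundle.of_le (n := ∞) (by norm_cast)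
  exact t.mdifferentiableAt_section_iff _ s ht

theorem mds_iff (hc : c ∈ atlas (Cn n) X) (hx : x ∈ c.source) (ht : x ∈ t.baseSet)
    {s : ∀ x, E x} : MD n r s x ↔ DifferentiableAt ℝ (SS c t s) (c x) :=
  (md_triv ht).trans (md_iff hc hx)

theorem sm_symm (ht : x ∈ t.baseSet) (u : Cn r) : SmoothSec n r (fun y => t.symm y u) x :=
  (sm_iff (chart_mem_atlas _ x) (mem_chart_source _ x) ht).2
    (contDiffAt_const.congr_of_eventuallyEq (SS_symm (mem_chart_source _ x) ht u))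

theorem hol_symm (ht : x ∈ t.baseSet) (u : Cn r) : HolSec n r (fun y => t.symm y u) x := by
  haveI : ContMDiffVectorBundle 1 (Cn r) E 𝓘(ℂ, Cn n) :=
    ContMDiffVectorBundle.of_le (n := ω) le_top
  filter_upwards [t.open_baseSet.mem_nhds ht] with p hp
  refine (t.mdifferentiableAt_section_iff _ _ hp).2
    ((mdifferentiableAt_const (c := u)).congr_of_eventuallyEq ?_)
  filter_upwards [t.open_baseSet.mem_nhds hp] with y hy
  exact congrArg Prod.snd (t.apply_mk_symm hy u)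

theorem exists_sec (e : E x) : ∃ s : ∀ x, E x, SmoothSec n r s x ∧ s x = e := by
  have ht := mem_baseSet_trivializationAt (Cn r) E x
  exact ⟨_, sm_symm ht _, (trivializationAt (Cn r) E x).symm_apply_apply_mk ht e⟩

theorem SmoothSec.near {s : ∀ x, E x} (h : SmoothSec n r s x) : ∀ᶠ y in 𝓝 x, MD n r s y := by
  haveI := vb_real r E
  haveI := cvb_real n r E
  haveI : ContMDiffVectorBundle 1 (Cn r) E 𝓘(ℝ, Cn n) :=
    ContMDiffVectorBundle.of_le (n := ∞) (by norm_cast)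
  have h1 := (contMDiffAt_iff_contMDiffAt_nhds (n := 1) (by simp)).1
    (ContMDiffAt.of_le h (by norm_cast))
  exact h1.mono fun y hy => hy.mdifferentiableAt one_ne_zero

end Vale.Agent.P296C
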