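import Vale.Agent.P296Z.Curv
import Mathlib.Analysis.Calculus.VectorField

/-! The Chern connection and its curvature on an open set of `ℂⁿ`. -/

set_option linter.all false

noncomputable section

namespace Vale.Agent.P296C

open Matrix Filter Set Complex Vale.Agent.P296Z
open scoped ContDiff Topology ComplexOrder ComplexConjugate

variable {n r : ℕ}

abbrev Mat (r : ℕ) : Type := Matrix (Fin r) (Fin r) ℂ

/-- entrywise derivative -/
def dM (M : Cn n → Mat r) (z v : Cn n) : Mat r :=
  Matrix.of fun a b => fderiv ℝ (fun y => M y a b) z v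

/-- the connection in a frame -/
def nab (G : Cn n → Mat r) (u : Cn n) (s : Cn n → Cn r) (y : Cn n) : Cn r :=
  fderiv ℝ s y u + connection G u y *ᵥ s y

def PP (G : Cn n → Mat r) (v w z : Cn n) : Mat r :=
  Matrix.of fun a b => -delbar (fun y => connection G w y a b) v z

def FF (G : Cn n → Mat r) (v w z : Cn n) : Mat r := PP G w v z - PP G v w z

theorem PP_self (G : Cn n → Mat r) (v z : Cn n) : PP G v v z = curvature G v z := rfl

theorem clm_smul (L : Cn n →L[ℝ] ℂ) (a : ℂ) (ξ : Cn n) :
    L (a • ξ) = a.re * L ξ + a.im * L (I • ξ) := by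
  have h : a • ξ = a.re • ξ + a.im • (I • ξ) := by
    funext j
    simp only [Pi.smul_apply, Pi.add_apply, smul_eq_mul, Complex.real_smul]
    conv_lhs => rw [← Complex.re_add_im a]
    ring
  rw [h, map_add, map_smul, map_smul, Complex.real_smul, Complex.real_smul]

theorem clm_II (L : Cn n →L[ℝ] ℂ) (ξ : Cn n) : L (I • I • ξ) = -L ξ := by
  rw [smul_smul, I_mul_I, neg_one_smul, map_neg]

/-- `∂` is complex linear in the direction -/
def delL (f : Cn n → ℂ) (z : Cn n) : Cn n →ₗ[ℂ] ℂ where
  toFun ξ := del f ξ z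
  map_add' ξ η := by simp only [del, smul_add, map_add]; ring
  map_smul' a ξ := by
    simp only [del, RingHom.id_apply, smul_eq_mul]
    rw [smul_comm I a ξ, clm_smul _ a ξ, clm_smul _ a (I • ξ), clm_II]
    conv_rhs => rw [← Complex.re_add_im a]
    linear_combination (a.im * fderiv ℝ f z (I • ξ) / 2) * I_mul_I

/-- `∂̄` is conjugate linear in the direction -/
def delbarL (f : Cn n → ℂ) (z : Cn n) : Cn n →ₗ⋆[ℂ] ℂ where
  toFun ξ := delbar f ξ z
  map_add' ξ η := by simp only [delbar, smul_add, map_add]; ring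
  map_smul' a ξ := by
    simp only [delbar, smul_eq_mul]
    rw [smul_comm I a ξ, clm_smul _ a ξ, clm_smul _ a (I • ξ), clm_II]
    have h : conj a = a.re - a.im * I := by
      apply Complex.ext <;> simp
    rw [h]
    linear_combination (a.im * fderiv ℝ f z (I • ξ) / 2) * I_mul_I

theorem eq_sum_single (u : Cn n) : u = ∑ j, u j • (Pi.single j 1 : Cn n) := by
  funext b
  simp [Finset.sum_apply, Pi.single_apply]

theorem del_sum (f : Cn n → ℂ) (u z : Cn n) :
    del f u z = ∑ j, u j * del f (Pi.single j 1) z := by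
  change delL f z u = ∑ j, u j * delL f z (Pi.single j 1)
  conv_lhs => rw [eq_sum_single u]
  simp only [map_sum, map_smul, smul_eq_mul]

theorem delbar_dir (f : Cn n → ℂ) (u z : Cn n) :
    delbar f u z = ∑ j, conj (u j) * delbar f (Pi.single j 1) z := by
  change delbarL f z u = ∑ j, conj (u j) * delbarL f z (Pi.single j 1)
  conv_lhs => rw [eq_sum_single u]
  simp only [map_sum, map_smulₛₗ, smul_eq_mul]

theorem conn_sum (G : Cn n → Mat r) (u y : Cn n) (a b : Fin r) :
    connection G u y a b = ∑ j, u j * connection G (Pi.single j 1) y a b := by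
  simp only [connection, Matrix.mul_apply, Matrix.of_apply, Finset.mul_sum]
  rw [Finset.sum_comm]
  refine Finset.sum_congr rfl fun c _ => ?_
  rw [del_sum, Finset.mul_sum]
  exact Finset.sum_congr rfl fun j _ => by ring

theorem conn_sum' (G : Cn n → Mat r) (u y : Cn n) :
    connection G u y = ∑ j, u j • connection G (Pi.single j 1) y := by
  ext a b
  rw [conn_sum, Matrix.sum_apply]
  rfl

theorem conn_smul (G : Cn n → Mat r) (a : ℂ) (u y : Cn n) :
    connection G (a • u) y = a • connection G u y := by
  rw [conn_sum' G (a • u), conn_sum' G u, Finset.smul_sum]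
  simp only [Pi.smul_apply, smul_eq_mul, mul_smul]

theorem conn_sub (G : Cn n → Mat r) (u v y : Cn n) :
    connection G (u - v) y = connection G u y - connection G v y := by
  rw [conn_sum' G (u - v), conn_sum' G u, conn_sum' G v, ← Finset.sum_sub_distrib]
  simp only [Pi.sub_apply, sub_smul]

theorem fderiv_apply' {s : Cn n → Cn r} {z : Cn n} (hs : DifferentiableAt ℝ s z) (p : Cn n)
    (b : Fin r) : fderiv ℝ (fun y => s y b) z p = fderiv ℝ s z p b := by
  rw [fderiv_apply hs b]; rfl

theorem diff_mulVec {M : Cn n → Mat r} {s : Cn n → Cn r} {z : Cn n}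
    (hM : ∀ a b, DifferentiableAt ℝ (fun y => M y a b) z) (hs : DifferentiableAt ℝ s z) :
    DifferentiableAt ℝ (fun y => M y *ᵥ s y) z := by
  refine differentiableAt_pi.2 fun a => ?_
  simp only [Matrix.mulVec, dotProduct]
  exact DifferentiableAt.fun_sum fun b _ => (hM a b).mul (differentiableAt_pi.1 hs b)

theorem fderiv_mulVec {M : Cn n → Mat r} {s : Cn n → Cn r} {z : Cn n}
    (hM : ∀ a b, DifferentiableAt ℝ (fun y => M y a b) z) (hs : DifferentiableAt ℝ s z)
    (p : Cn n) : fderiv ℝ (fun y => M y *ᵥ s y) z p = dM M z p *ᵥ s z + M z *ᵥ fderiv ℝ s z p := by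
  funext a
  rw [← fderiv_apply' (diff_mulVec hM hs)]
  simp only [Matrix.mulVec, dotProduct, Pi.add_apply, dM, Matrix.of_apply]
  rw [fderiv_fun_sum fun b _ => (hM a b).fun_mul (differentiableAt_pi.1 hs b),
    ContinuousLinearMap.sum_apply, ← Finset.sum_add_distrib]
  refine Finset.sum_congr rfl fun b _ => ?_
  rw [fderiv_fun_mul (hM a b) (differentiableAt_pi.1 hs b), ← fderiv_apply' hs]
  simp only [ContinuousLinearMap.add_apply, ContinuousLinearMap.smul_apply, smul_eq_mul]
  ring

theorem dM_mul {M N : Cn n → Mat r} {z : Cn n}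
    (hM : ∀ a b, DifferentiableAt ℝ (fun y => M y a b) z)
    (hN : ∀ a b, DifferentiableAt ℝ (fun y => N y a b) z) (p : Cn n) :
    dM (fun y => M y * N y) z p = dM M z p * N z + M z * dM N z p := by
  ext a b
  simp only [Matrix.mul_apply, Matrix.add_apply, dM, Matrix.of_apply]
  rw [fderiv_fun_sum fun c _ => (hM a c).fun_mul (hN c b),
    ContinuousLinearMap.sum_apply, ← Finset.sum_add_distrib]
  refine Finset.sum_congr rfl fun c _ => ?_
  rw [fderiv_fun_mul (hM a c) (hN c b)]
  simp only [ContinuousLinearMap.add_apply, ContinuousLinearMap.smul_apply, smul_eq_mul]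
  ring

/-- a smooth positive definite matrix function on an open set -/
structure Good (G : Cn n → Mat r) (U : Set (Cn n)) : Prop where
  op : IsOpen U
  sm : ∀ a b, ContDiffOn ℝ ∞ (fun y => G y a b) U
  pd : ∀ y ∈ U, (G y).PosDef

variable {G : Cn n → Mat r} {U : Set (Cn n)} {z : Cn n}

theorem Good.at (h : Good G U) (hz : z ∈ U) (a b : Fin r) : ContDiffAt ℝ ∞ (fun y => G y a b) z :=
  (h.sm a b).contDiffAt (h.op.mem_nhds hz)

theorem Good.diff (h : Good G U) (hz : z ∈ U) (a b : Fin r) :
    DifferentiableAt ℝ (fun y => G y a b) z := (h.at hz a b).differentiableAt (by simp)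

theorem Good.conn_at (h : Good G U) (hz : z ∈ U) (u : Cn n) (a b : Fin r) :
    ContDiffAt ℝ ∞ (fun y => connection G u y a b) z := by
  simp only [connection, Matrix.mul_apply, Matrix.of_apply]
  refine ContDiffAt.sum fun c _ => ContDiffAt.mul ?_ ?_
  · exact (P296.H354.contDiffOn_inv_entry h.sm (fun y hy =>
      (P296.H354.posDef_isUnit_det (h.pd y hy)).ne_zero) a c).contDiffAt (h.op.mem_nhds hz)
  · have h1 : ContDiffAt ℝ ∞ (fderiv ℝ fun y => G y c b) z :=
      (h.at hz c b).fderiv_right (m := ∞) (by norm_cast)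
    unfold del
    exact ((h1.clm_apply contDiffAt_const).sub
      (contDiffAt_const.mul (h1.clm_apply contDiffAt_const))).div_const _

theorem Good.conn_diff (h : Good G U) (hz : z ∈ U) (u : Cn n) (a b : Fin r) :
    DifferentiableAt ℝ (fun y => connection G u y a b) z :=
  (h.conn_at hz u a b).differentiableAt (by simp)

theorem Good.mul_conn (h : Good G U) (hz : z ∈ U) (u : Cn n) :
    G z * connection G u z = Matrix.of fun a b => del (fun y => G y a b) u z := by
  unfold connection
  rw [← Matrix.mul_assoc, Matrix.mul_nonsing_inv _ (P296.H354.posDef_isUnit_det (h.pd z hz)),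
    Matrix.one_mul]

theorem Good.cancel (h : Good G U) (hz : z ∈ U) {A B : Mat r} (e : G z * A = G z * B) : A = B := by
  have := congrArg (fun M => (G z)⁻¹ * M) e
  simpa only [← Matrix.mul_assoc, Matrix.nonsing_inv_mul _
    (P296.H354.posDef_isUnit_det (h.pd z hz)), Matrix.one_mul] using this

/-- compatibility with the metric -/
theorem Good.metric (h : Good G U) (hz : z ∈ U) (u : Cn n) :
    dM G z u = (connection G u z)ᴴ * G z + G z * connection G u z := by
  have h1 : (connection G u z)ᴴ * G z = (G z * connection G u z)ᴴ := by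
    rw [Matrix.conjTranspose_mul, (h.pd z hz).isHermitian.eq]
  rw [h1, h.mul_conn hz]
  ext a b
  rw [Matrix.add_apply, Matrix.conjTranspose_apply, Matrix.of_apply, Matrix.of_apply,
    star_del (h.diff hz b a), delbar_congr (g := fun y => G y a b) (by
      filter_upwards [h.op.mem_nhds hz] with y hy
      exact (h.pd y hy).isHermitian.apply a b)]
  simp only [dM, del, delbar, Matrix.of_apply]
  ring

/-- uniqueness of the connection matrix -/
theorem Good.unique (h : Good G U) (hz : z ∈ U) {u : Cn n} {A : Mat r}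
    (h1 : dM G z u = Aᴴ * G z + G z * A)
    (h2 : dM G z (I • u) = (I • A)ᴴ * G z + G z * (I • A)) : A = connection G u z := by
  refine h.cancel hz ?_
  rw [h.mul_conn hz]
  ext a b
  have h3 := congrFun (congrFun h1 a) b
  have h4 := congrFun (congrFun h2 a) b
  simp only [Matrix.conjTranspose_smul, Matrix.smul_mul, Matrix.mul_smul, Matrix.add_apply,
    Matrix.smul_apply, smul_eq_mul, dM, Matrix.of_apply, Complex.star_def, conj_I] at h3 h4
  simp only [Matrix.of_apply, del, h3, h4]
  linear_combination (((G z * A) a b - (Aᴴ * G z) a b) / 2) * I_mul_I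

theorem Good.flat (h : Good G U) (hz : z ∈ U) (v w : Cn n) :
    dM (connection G w) z v - dM (connection G v) z w +
      (connection G v z * connection G w z - connection G w z * connection G v z) =
      FF G v w z := by
  have h2 : ∀ a b, ContDiffAt ℝ 2 (fun y => G y a b) z := fun a b =>
    (h.at hz a b).of_le (by norm_cast)
  have key : ∀ q p a b, (G z * dM (connection G q) z p) a b =
      (fderiv ℝ (fderiv ℝ fun y => G y a b) z p q -
        I * fderiv ℝ (fderiv ℝ fun y => G y a b) z p (I • q)) / 2 -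
        (dM G z p * connection G q z) a b := by
    intro q p a b
    have h3 := congrFun (congrFun (dM_mul (h.diff hz) (h.conn_diff hz q) p) a) b
    have h4 : (fun y => (G y * connection G q y) a b) =ᶠ[𝓝 z] del (fun y => G y a b) q := by
      filter_upwards [h.op.mem_nhds hz] with y hy
      rw [h.mul_conn hy]; rfl
    rw [dM, Matrix.of_apply, h4.fderiv_eq, (hasFDerivAt_del (h2 a b) q).fderiv,
      Matrix.add_apply] at h3
    simp only [ContinuousLinearMap.smul_apply, ContinuousLinearMap.sub_apply, smul_eq_mul,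
      ← P296.fderiv2_apply (P296.ContDiffAt.diff_fderiv (h2 a b))] at h3
    linear_combination -h3
  have hP : ∀ p q, PP G p q z = (-1 / 2 : ℂ) • (dM (connection G q) z p +
      I • dM (connection G q) z (I • p)) := by
    intro p q
    ext a b
    simp only [PP, dM, delbar, Matrix.of_apply, Matrix.smul_apply, Matrix.add_apply, smul_eq_mul]
    ring
  have hC : ∀ p, G z * connection G p z = (1 / 2 : ℂ) • (dM G z p - I • dM G z (I • p)) := by
    intro p
    rw [h.mul_conn hz]
    ext a b
    simp only [dM, del, Matrix.of_apply, Matrix.smul_apply, Matrix.sub_apply, smul_eq_mul]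
    ring
  refine h.cancel hz ?_
  ext a b
  have hs := (h2 a b).isSymmSndFDerivAt (by simp)
  simp only [FF, hP, Matrix.mul_add, Matrix.mul_sub, Matrix.mul_smul, ← Matrix.mul_assoc, hC,
    Matrix.smul_mul, Matrix.sub_mul, Matrix.add_apply, Matrix.sub_apply, Matrix.smul_apply,
    smul_eq_mul, key]
  rw [hs w v, hs w (I • v), hs (I • w) v, hs (I • w) (I • v)]
  ring

theorem Good.dM_conn (h : Good G U) (hz : z ∈ U) {w : Cn n → Cn n} (hw : DifferentiableAt ℝ w z) :
    (∀ a b, DifferentiableAt ℝ (fun y => connection G (w y) y a b) z) ∧ ∀ p,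
      dM (fun y => connection G (w y) y) z p =
        connection G (fderiv ℝ w z p) z + dM (connection G (w z)) z p := by
  have hj := differentiableAt_pi.1 hw
  refine ⟨fun a b => ?_, fun p => ?_⟩
  · simp only [conn_sum G (w _)]
    exact DifferentiableAt.fun_sum fun j _ => (hj j).mul (h.conn_diff hz _ a b)
  · ext a b
    simp only [dM, Matrix.of_apply, Matrix.add_apply, conn_sum G (w _), conn_sum G (fderiv ℝ w z p)]
    rw [fderiv_fun_sum fun j _ => (hj j).fun_mul (h.conn_diff hz _ a b),
      fderiv_fun_sum fun j _ => (differentiableAt_const _).fun_mul (h.conn_diff hz _ a b),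
      ContinuousLinearMap.sum_apply, ContinuousLinearMap.sum_apply, ← Finset.sum_add_distrib]
    refine Finset.sum_congr rfl fun j _ => ?_
    rw [fderiv_fun_mul (hj j) (h.conn_diff hz _ a b),
      fderiv_const_mul (h.conn_diff hz _ a b), ← fderiv_apply' hw]
    simp only [ContinuousLinearMap.add_apply, ContinuousLinearMap.smul_apply, smul_eq_mul]
    ring

theorem Good.nab_at (h : Good G U) (hz : z ∈ U) {s : Cn n → Cn r} {w : Cn n → Cn n}
    (hs : ContDiffAt ℝ ∞ s z) (hw : ContDiffAt ℝ ∞ w z) :
    ContDiffAt ℝ ∞ (fun y => nab G (w y) s y) z := by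
  refine ((hs.fderiv_right (m := ∞) (by norm_cast)).clm_apply hw).add ?_
  refine contDiffAt_pi.2 fun a => ?_
  simp only [Matrix.mulVec, dotProduct, conn_sum G (w _)]
  exact ContDiffAt.sum fun b _ => (ContDiffAt.sum fun j _ =>
    (contDiffAt_pi.1 hw j).mul (h.conn_at hz _ a b)).mul (contDiffAt_pi.1 hs b)

theorem Good.curv (h : Good G U) (hz : z ∈ U) {s : Cn n → Cn r} {v w : Cn n → Cn n}
    (hs : ContDiffAt ℝ 2 s z) (hv : DifferentiableAt ℝ v z) (hw : DifferentiableAt ℝ w z) :
    nab G (v z) (fun y => nab G (w y) s y) z - nab G (w z) (fun y => nab G (v y) s y) z -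
      nab G (VectorField.lieBracket ℝ v w z) s z = FF G (v z) (w z) z *ᵥ s z := by
  have h1 : DifferentiableAt ℝ s z := hs.differentiableAt (by simp)
  have h2 : DifferentiableAt ℝ (fderiv ℝ s) z :=
    (hs.fderiv_right (m := 1) (by norm_num)).differentiableAt (by simp)
  have key : ∀ {w : Cn n → Cn n}, DifferentiableAt ℝ w z → ∀ p,
      fderiv ℝ (fun y => nab G (w y) s y) z p = fderiv ℝ (fderiv ℝ s) z p (w z) +
        fderiv ℝ s z (fderiv ℝ w z p) + ((connection G (fderiv ℝ w z p) z +
          dM (connection G (w z)) z p) *ᵥ s z + connection G (w z) z *ᵥ fderiv ℝ s z p) := by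
    intro w hw p
    obtain ⟨h3, h4⟩ := h.dM_conn hz hw
    unfold nab
    rw [fderiv_fun_add (h2.clm_apply hw) (diff_mulVec h3 h1), ContinuousLinearMap.add_apply,
      fderiv_mulVec h3 h1, h4, fderiv_clm_apply h2 hw]
    simp only [ContinuousLinearMap.add_apply, ContinuousLinearMap.comp_apply,
      ContinuousLinearMap.flip_apply]
    abel
  have e : ∀ u f, nab G u f z = fderiv ℝ f z u + connection G u z *ᵥ f z := fun _ _ => rfl
  rw [← h.flat hz, e (v z), e (w z) (fun y => nab G (v y) s y), key hw, key hv,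
    (hs.isSymmSndFDerivAt (by simp)) (w z) (v z)]
  simp only [nab, VectorField.lieBracket, map_sub, conn_sub, Matrix.add_mulVec, Matrix.sub_mulVec,
    Matrix.mulVec_add, Matrix.mulVec_mulVec]
  abel

theorem Good.PP_sum (h : Good G U) (hz : z ∈ U) (v w : Cn n) :
    PP G w v z = ∑ j, ∑ k, (v j * conj (w k)) • PP G (Pi.single k 1) (Pi.single j 1) z := by
  ext a b
  simp only [PP, Matrix.of_apply, Matrix.sum_apply, Matrix.smul_apply, smul_eq_mul,
    conn_sum G v]
  have h1 : ∀ p, delbar (fun y => ∑ j, v j * connection G (Pi.single j 1) y a b) p z =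
      ∑ j, v j * delbar (fun y => connection G (Pi.single j 1) y a b) p z := by
    intro p
    rw [delbar_sum fun j => (differentiableAt_const _).fun_mul (h.conn_diff hz _ a b)]
    refine Finset.sum_congr rfl fun j _ => ?_
    rw [delbar_mul (differentiableAt_const _) (h.conn_diff hz _ a b)]
    simp [delbar]
  rw [h1, ← Finset.sum_neg_distrib]
  refine Finset.sum_congr rfl fun j _ => ?_
  rw [delbar_dir, Finset.mul_sum, ← Finset.sum_neg_distrib]
  exact Finset.sum_congr rfl fun k _ => by ring

end Vale.Agent.P296C
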