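import Vale.Agent.P296C80.Chart
import Vale.Agent.P296C80.Flat

/-! The Chern connection in a chart; existence and uniqueness. -/

set_option linter.all false

noncomputable section

namespace Vale.Agent.P296C

open Bundle Matrix Filter Set Complex VectorField Vale.Agent.P296Z
open scoped Manifold ContDiff Topology ComplexConjugate ComplexOrder

variable {n r : ℕ} {X : Type} [TopologicalSpace X] [ChartedSpace (Cn n) X]
  {E : X → Type} [∀ x, AddCommGroup (E x)] [∀ x, Module ℂ (E x)]
  [∀ x, TopologicalSpace (E x)] [TopologicalSpace (TotalSpace (Cn r) E)] [FiberBundle (Cn r) E]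
  [VectorBundle ℂ (Cn r) E]
  {c : OpenPartialHomeomorph X (Cn n)} {x : X}
  {t : Trivialization (Cn r) (π (Cn r) E)} [MemTrivializationAtlas t]

theorem mv_clm {W W' : Type} [NormedAddCommGroup W] [NormedSpace ℝ W] [NormedAddCommGroup W']
    [NormedSpace ℝ W'] (L : W →L[ℝ] W') {g : X → W}
    (h : MDifferentiableAt 𝓘(ℝ, Cn n) 𝓘(ℝ, W) g x) :
    MDifferentiableAt 𝓘(ℝ, Cn n) 𝓘(ℝ, W') (fun y => L (g y)) x ∧
    ∀ u, mvfderiv 𝓘(ℝ, Cn n) (fun y => L (g y)) x u = L (mvfderiv 𝓘(ℝ, Cn n) g x u) := by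
  have h1 := L.hasMFDerivAt.comp x h.hasMFDerivAt
  refine ⟨h1.mdifferentiableAt, fun u => ?_⟩
  have h2 : mfderiv 𝓘(ℝ, Cn n) 𝓘(ℝ, W') (fun y => L (g y)) x = _ := h1.mfderiv
  unfold mvfderiv
  rw [h2]
  rfl

/-- the Gram matrix in a chart -/
def GG (H : Herm n r E) (c : OpenPartialHomeomorph X (Cn n))
    (t : Trivialization (Cn r) (π (Cn r) E)) : Cn n → Mat r :=
  gram (fun x v w => H.h x v w) c t

theorem GG_at (H : Herm n r E) (hx : x ∈ c.source) : GG H c t (c x) = gr H.h t x :=
  congrArg (gr H.h t) (c.left_inv hx)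

theorem h_coord (h : ∀ x, E x →ₗ⋆[ℂ] E x →ₗ[ℂ] ℂ) (ht : x ∈ t.baseSet) (v w : E x) :
    h x v w = star (t.linearMapAt ℂ x v) ⬝ᵥ gr h t x *ᵥ t.linearMapAt ℂ x w := by
  conv_lhs => rw [← sum_frame ht v, ← sum_frame ht w]
  simp only [map_sum, map_smulₛₗ, LinearMap.sum_apply, LinearMap.smul_apply, smul_eq_mul,
    RingHom.id_apply, Finset.mul_sum, dotProduct, Matrix.mulVec, gr, Matrix.of_apply,
    Pi.star_apply]
  rw [Finset.sum_comm]
  refine Finset.sum_congr rfl fun c _ => Finset.sum_congr rfl fun d _ => ?_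
  rw [starRingEnd_apply]
  ring

theorem lin_frame (ht : x ∈ t.baseSet) (a : Fin r) :
    t.linearMapAt ℂ x (frame t x a) = Pi.single a 1 := t.linearMapAt_symm ht _

theorem SS_smul (hx : x ∈ c.source) (ht : x ∈ t.baseSet) (g : X → ℂ) (s : ∀ x, E x) :
    SS c t (fun y => g y • s y) =ᶠ[𝓝 (c x)] fun z => g (c.symm z) • SS c t s z := by
  filter_upwards [near_dom hx ht] with z hz
  exact (t.linear ℂ hz.2).2 _ _

theorem SS_add (hx : x ∈ c.source) (ht : x ∈ t.baseSet) (s s' : ∀ x, E x) :
    SS c t (s + s') =ᶠ[𝓝 (c x)] fun z => SS c t s z + SS c t s' z := by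
  filter_upwards [near_dom hx ht] with z hz
  exact (t.linear ℂ hz.2).1 _ _

variable [IsManifold 𝓘(ℝ, Cn n) ∞ X] [ContMDiffVectorBundle ω (Cn r) E 𝓘(ℂ, Cn n)]

theorem good (H : Herm n r E) (hc : c ∈ atlas (Cn n) X) : Good (GG H c t) (dom c t) where
  op := isOpen_dom c t
  sm a b z hz := by
    have h := (cm_iff hc (c.map_target hz.1)).1
      (H.smooth _ _ _ (sm_symm hz.2 (Pi.single a 1)) (sm_symm hz.2 (Pi.single b 1)))
    rw [c.right_inv hz.1] at h
    exact h.contDiffWithinAt
  pd z hz := gr_posDef (h := H.h) (H.herm _) (H.pos _) hz.2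

theorem MD.smul {g : X → ℂ} {s : ∀ x, E x} (hg : MDifferentiableAt 𝓘(ℝ, Cn n) 𝓘(ℝ, ℂ) g x)
    (hs : MD n r s x) : MD n r (fun y => g y • s y) x := by
  have hc := chart_mem_atlas (Cn n) x
  have hx := mem_chart_source (Cn n) x
  have ht := mem_baseSet_trivializationAt (Cn r) E x
  exact (mds_iff hc hx ht).2 ((((md_iff hc hx).1 hg).smul
    ((mds_iff hc hx ht).1 hs)).congr_of_eventuallyEq (SS_smul hx ht g s))

theorem SmoothSec.mulI {s : ∀ x, E x} (hs : SmoothSec n r s x) : SmoothSec n r (I • s) x := by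
  have hc := chart_mem_atlas (Cn n) x
  have hx := mem_chart_source (Cn n) x
  have ht := mem_baseSet_trivializationAt (Cn r) E x
  exact (sm_iff hc hx ht).2 ((((sm_iff hc hx ht).1 hs).const_smul I).congr_of_eventuallyEq
    (SS_smul hx ht (fun _ => I) s))

variable [∀ x, IsTopologicalAddGroup (E x)] [∀ x, ContinuousSMul ℝ (E x)]

theorem leibniz_c {D : Conn n r E}
    (hC : ∀ s x v, SmoothSec n r s x → D (I • s) x v = I • D s x v)
    {g : X → ℂ} {s : ∀ x, E x} (hg : MDifferentiableAt 𝓘(ℝ, Cn n) 𝓘(ℝ, ℂ) g x)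
    (hs : SmoothSec n r s x) (u : Tan n x) :
    D (fun y => g y • s y) x u = g x • D s x u + mvfderiv 𝓘(ℝ, Cn n) g x u • s x := by
  haveI := vb_real r E
  obtain ⟨h1, h1'⟩ := mv_clm reCLM hg
  obtain ⟨h2, h2'⟩ := mv_clm imCLM hg
  have e : ∀ (a : ℂ) y (v : E y), a • v = a.re • v + a.im • (I • v) := by
    intro a y v
    rw [← Complex.coe_smul, ← Complex.coe_smul, smul_smul, ← add_smul, Complex.re_add_im]
  have e1 : (fun y => g y • s y) = (fun y => reCLM (g y)) • s + (fun y => imCLM (g y)) • (I • s) :=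
    funext fun y => e _ _ _
  have hD := D.isCovariantDerivativeOnUniv
  rw [e1, hD.add (h1.smul_section hs.md) (h2.smul_section hs.mulI.md), hD.leibniz hs.md h1,
    hD.leibniz hs.mulI.md h2]
  simp only [ContinuousLinearMap.add_apply, ContinuousLinearMap.smul_apply,
    ContinuousLinearMap.smulRight_apply]
  rw [h1', h2', hC s x u hs]
  simp only [Pi.smul_apply, reCLM_apply, imCLM_apply]
  rw [e (g x), e (mvfderiv 𝓘(ℝ, Cn n) g x u)]
  abel

theorem D_sum (D : Conn n r E) {τ : Fin r → ∀ x, E x} (h : ∀ a, MD n r (τ a) x)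
    (S : Finset (Fin r)) : D (fun y => ∑ a ∈ S, τ a y) x = ∑ a ∈ S, D (τ a) x := by
  haveI := vb_real r E
  have hD := D.isCovariantDerivativeOnUniv
  induction S using Finset.induction_on with
  | empty => exact hD.zero (x := x)
  | insert a S ha ih =>
    simp only [Finset.sum_insert ha]
    rw [← ih]
    exact hD.add (h a) (MDifferentiableAt.sum_section fun i _ => h i)

/-- the pointwise axioms of the Chern connection -/
structure Pre (H : Herm n r E) (D : Conn n r E) : Prop where
  complex : ∀ s x v, SmoothSec n r s x → D (I • s) x v = I • D s x v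
  metric : ∀ s t x v, SmoothSec n r s x → SmoothSec n r t x →
    mvfderiv 𝓘(ℝ, Cn n) (fun y => H.h y (s y) (t y)) x v =
      H.h x (D s x v) (t x) + H.h x (s x) (D t x v)
  dbar : ∀ s x v, HolSec n r s x → D s x v + I • D s x (J n v) = 0

theorem IsChern.pre {H : Herm n r E} {D : Conn n r E} (h : IsChern H D) : Pre H D :=
  ⟨h.complex, h.metric, h.dbar⟩

variable [IsManifold 𝓘(ℂ, Cn n) ω X] {H : Herm n r E} {D : Conn n r E}

theorem Pre.om (h : Pre H D) (hc : c ∈ atlas (Cn n) X) (hx : x ∈ c.source) (ht : x ∈ t.baseSet)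
    (u : Tan n x) : (Matrix.of fun b a => t.linearMapAt ℂ x (D (fun y => frame t y a) x u) b) =
      connection (GG H c t) (dc c x u) (c x) := by
  have key : ∀ u : Tan n x, dM (GG H c t) (c x) (dc c x u) =
      (Matrix.of fun b a => t.linearMapAt ℂ x (D (fun y => frame t y a) x u) b)ᴴ * GG H c t (c x) +
      GG H c t (c x) * Matrix.of fun b a => t.linearMapAt ℂ x (D (fun y => frame t y a) x u) b := by
    intro u
    ext a b
    have ha : SmoothSec n r (fun y => frame t y a) x := sm_symm ht _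
    have hb : SmoothSec n r (fun y => frame t y b) x := sm_symm ht _
    have h1 := h.metric _ _ x u ha hb
    rw [mv_chart hc hx ((H.smooth _ _ x ha hb).mdifferentiableAt (by simp)), h_coord H.h ht,
      h_coord H.h ht, lin_frame ht, lin_frame ht] at h1
    refine h1.trans ?_
    rw [GG_at H hx]
    simp [Matrix.mul_apply, dotProduct, Matrix.mulVec, Pi.single_apply]
  refine (good H hc).unique (mem_dom hx ht) (key u) ?_
  rw [← dc_J hc hx, key]
  have h2 : (Matrix.of fun b a => t.linearMapAt ℂ x (D (fun y => frame t y a) x (J n u)) b) =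
      I • Matrix.of fun b a => t.linearMapAt ℂ x (D (fun y => frame t y a) x u) b := by
    ext b a
    have h3 := congrFun (congrArg (t.linearMapAt ℂ x)
      (h.dbar (fun y => frame t y a) x u (hol_symm ht _))) b
    simp only [map_add, map_smul, map_zero, Pi.add_apply, Pi.smul_apply, smul_eq_mul,
      Pi.zero_apply] at h3
    simp only [Matrix.of_apply, Matrix.smul_apply, smul_eq_mul]
    linear_combination (-I) * h3 +
      (t.linearMapAt ℂ x (D (fun y => frame t y a) x (J n u)) b) * I_mul_I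
  rw [h2]

/-- the Chern connection in a chart and a holomorphic frame -/
theorem Pre.chart (h : Pre H D) (hc : c ∈ atlas (Cn n) X) (hx : x ∈ c.source) (ht : x ∈ t.baseSet)
    {s : ∀ x, E x} (hs : MD n r s x) (u : Tan n x) :
    t.linearMapAt ℂ x (D s x u) = nab (GG H c t) (dc c x u) (SS c t s) (c x) := by
  haveI := vb_real r E
  have hS := (mds_iff hc hx ht).1 hs
  have hg : ∀ a, MDifferentiableAt 𝓘(ℝ, Cn n) 𝓘(ℝ, ℂ) (fun y => (t ⟨y, s y⟩).2 a) x :=
    fun a => (md_iff hc hx).2 (differentiableAt_pi.1 hS a)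
  have ha : ∀ a, SmoothSec n r (fun y => P296Z.frame t y a) x := fun a => sm_symm ht _
  have hτ : ∀ a, MD n r (fun y => (t ⟨y, s y⟩).2 a • P296Z.frame t y a) x :=
    fun a => MD.smul (hg a) (ha a).md
  have h1 : D s x = D (fun y => ∑ a, (t ⟨y, s y⟩).2 a • P296Z.frame t y a) x := by
    refine D.isCovariantDerivativeOnUniv.congr_of_eventuallyEq hs
      (MDifferentiableAt.sum_section fun i _ => hτ i) univ_mem ?_
    filter_upwards [t.open_baseSet.mem_nhds ht] with y hy
    have h2 := sum_frame hy (s y)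
    rw [t.coe_linearMapAt_of_mem hy] at h2
    exact h2.symm
  rw [h1, D_sum D hτ, ContinuousLinearMap.sum_apply, map_sum, nab, ← h.om hc hx ht,
    SS_at hx ht, t.coe_linearMapAt_of_mem ht, ← t.coe_linearMapAt_of_mem (R := ℂ) ht]
  funext b
  simp only [leibniz_c h.complex (hg _) (ha _), map_add, map_smul, lin_frame ht,
    mv_chart hc hx (hg _), Finset.sum_apply, Pi.add_apply, Pi.smul_apply, smul_eq_mul,
    Finset.sum_add_distrib, Pi.single_apply, mul_ite, mul_one, mul_zero, Finset.sum_ite_eq,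
    Finset.mem_univ, if_true, Matrix.mulVec, dotProduct, Matrix.of_apply]
  rw [add_comm, ← fderiv_apply' hS]
  congr 1
  refine Finset.sum_congr rfl fun a _ => ?_
  rw [mul_comm, t.coe_linearMapAt_of_mem ht]

theorem Pre.unique {D' : Conn n r E} (h : Pre H D) (h' : Pre H D') {s : ∀ x, E x}
    (hs : MD n r s x) : D' s x = D s x := by
  have hc := chart_mem_atlas (Cn n) x
  have hx := mem_chart_source (Cn n) x
  have ht := mem_baseSet_trivializationAt (Cn r) E x
  ext u
  exact lin_inj ht ((h'.chart hc hx ht hs u).trans (h.chart hc hx ht hs u).symm)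

theorem Pre.SS_D (h : Pre H D) (hc : c ∈ atlas (Cn n) X) (hx : x ∈ c.source) (ht : x ∈ t.baseSet)
    {s : ∀ x, E x} (hs : SmoothSec n r s x) (V : ∀ x : X, Tan n x) :
    SS c t (fun y => D s y (V y)) =ᶠ[𝓝 (c x)]
      fun z => nab (GG H c t) (vv c V z) (SS c t s) z := by
  filter_upwards [near_target hx hs.near, near_dom hx ht] with z hz hz'
  have h1 := h.chart hc (c.map_target hz.1) hz'.2 hz.2 (V (c.symm z))
  rw [c.right_inv hz.1, t.coe_linearMapAt_of_mem hz'.2, ← vv_symm hc hz.1] at h1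
  exact h1

theorem Pre.chern (h : Pre H D) : IsChern H D where
  complex := h.complex
  metric := h.metric
  dbar := h.dbar
  smooth s V x hs hV := by
    have hc := chart_mem_atlas (Cn n) x
    have hx := mem_chart_source (Cn n) x
    have ht := mem_baseSet_trivializationAt (Cn r) E x
    exact (sm_iff hc hx ht).2 (((good H hc).nab_at (mem_dom hx ht) ((sm_iff hc hx ht).1 hs)
      (vv_smooth hc hx hV)).congr_of_eventuallyEq (h.SS_D hc hx ht hs V))

/-- the curvature in a chart and a holomorphic frame -/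
theorem Pre.curv (h : Pre H D) (hc : c ∈ atlas (Cn n) X) (hx : x ∈ c.source) (ht : x ∈ t.baseSet)
    {V W : ∀ x : X, Tan n x} {s : ∀ x, E x} (hV : SmoothField n V x) (hW : SmoothField n W x)
    (hs : SmoothSec n r s x) :
    t.linearMapAt ℂ x (D (fun y => D s y (W y)) x (V x) - D (fun y => D s y (V y)) x (W x) -
      D s x (mlieBracket 𝓘(ℝ, Cn n) V W x)) =
      FF (GG H c t) (dc c x (V x)) (dc c x (W x)) (c x) *ᵥ t.linearMapAt ℂ x (s x) := by
  have e : ∀ {f g : Cn n → Cn r} (u : Cn n), f =ᶠ[𝓝 (c x)] g →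
      nab (GG H c t) u f (c x) = nab (GG H c t) u g (c x) := by
    intro f g u hfg
    rw [nab, nab, hfg.fderiv_eq, hfg.eq_of_nhds]
  rw [map_sub, map_sub, h.chart hc hx ht (h.chern.smooth s W x hs hW).md,
    h.chart hc hx ht (h.chern.smooth s V x hs hV).md, h.chart hc hx ht hs.md,
    e _ (h.SS_D hc hx ht hs W), e _ (h.SS_D hc hx ht hs V), vv_bracket hc hx hV hW,
    ← vv_at hc hx, ← vv_at hc hx, ← SS_at hx ht]
  exact (good H hc).curv (mem_dom hx ht) (((sm_iff hc hx ht).1 hs).of_le (by norm_cast))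
    ((vv_smooth hc hx hV).differentiableAt (by simp))
    ((vv_smooth hc hx hW).differentiableAt (by simp))

end Vale.Agent.P296C
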