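import Vale.Agent.P296Z.Defs
import Mathlib.Geometry.Manifold.VectorBundle.CovariantDerivative.Basic
import Mathlib.Geometry.Manifold.VectorField.LieBracket

/-!
# P296: the Chern connection, its curvature and Griffiths positivity

`X` is a complex manifold modelled on `ℂⁿ`, `E` a holomorphic vector bundle of rank `r` on `X`.
Smooth means real `C^∞`; connections are Mathlib's covariant derivatives on `E` over the real
manifold `X`.
-/

noncomputable section

namespace Vale.Agent.P296C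

open Bundle VectorField Vale.Agent.P296Z
open scoped Manifold ContDiff Topology ComplexConjugate

/-- The value `h(v, w)` of a sesquilinear form. -/
abbrev ev {V : Type} [AddCommGroup V] [Module ℂ V] (h : V →ₗ⋆[ℂ] V →ₗ[ℂ] ℂ) (v w : V) : ℂ := h v w

variable (n r : ℕ) {X : Type} [TopologicalSpace X] [ChartedSpace (Cn n) X]

/-- The real tangent space of `X` at `x`. -/
abbrev Tan (x : X) : Type := TangentSpace 𝓘(ℝ, Cn n) x

/-- The complex structure: multiplication by `i` on the tangent space. -/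
def J {x : X} (v : Tan n x) : Tan n x :=
  (Complex.I • (show TangentSpace 𝓘(ℂ, Cn n) x from v) : TangentSpace 𝓘(ℂ, Cn n) x)

/-- `dz_j (v)` for the local coordinates `c = (z_1, …, z_n)`. -/
def dz (c : OpenPartialHomeomorph X (Cn n)) {x : X} (v : Tan n x) (j : Fin n) : ℂ :=
  mvfderiv 𝓘(ℝ, Cn n) c x v j

/-- The derivative `df (v)` of a function. -/
abbrev df (f : X → ℂ) (x : X) (v : Tan n x) : ℂ := mvfderiv 𝓘(ℝ, Cn n) f x v

/-- The Lie bracket of vector fields. -/
abbrev br (V W : ∀ x : X, Tan n x) (x : X) : Tan n x := mlieBracket 𝓘(ℝ, Cn n) V W x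

/-- The vector field `V` is smooth at `x`. -/
def SmoothField [IsManifold 𝓘(ℝ, Cn n) ∞ X] (V : ∀ x : X, Tan n x) (x : X) : Prop :=
  ContMDiffAt 𝓘(ℝ, Cn n) 𝓘(ℝ, Cn n).tangent ∞ (fun y => TotalSpace.mk' (Cn n) y (V y)) x

variable {E : X → Type} [∀ x, AddCommGroup (E x)] [∀ x, Module ℂ (E x)]
  [∀ x, TopologicalSpace (E x)] [TopologicalSpace (TotalSpace (Cn r) E)] [FiberBundle (Cn r) E]

/-- The section `s` of `E` is smooth at `x`. -/
def SmoothSec (s : ∀ x, E x) (x : X) : Prop :=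
  ContMDiffAt 𝓘(ℝ, Cn n) (𝓘(ℝ, Cn n).prod 𝓘(ℝ, Cn r)) ∞ (fun y => TotalSpace.mk' (Cn r) y (s y)) x

/-- The section `s` of `E` is holomorphic in a neighbourhood of `x`. -/
def HolSec (s : ∀ x, E x) (x : X) : Prop :=
  ∀ᶠ p in 𝓝 x, MDifferentiableAt 𝓘(ℂ, Cn n) (𝓘(ℂ, Cn n).prod 𝓘(ℂ, Cn r))
    (fun y => TotalSpace.mk' (Cn r) y (s y)) p

variable (E) in
/-- A smooth Hermitian metric on `E`. -/
structure Herm where
  h : ∀ x, E x →ₗ⋆[ℂ] E x →ₗ[ℂ] ℂ
  herm : ∀ x v w, ev (h x) w v = conj (ev (h x) v w)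
  pos : ∀ x v, v ≠ 0 → 0 < (ev (h x) v v).re
  smooth : ∀ s t x, SmoothSec n r s x → SmoothSec n r t x →
    ContMDiffAt 𝓘(ℝ, Cn n) 𝓘(ℝ, ℂ) ∞ (fun y => ev (h y) (s y) (t y)) x

variable {n r} in
/-- `b` is an orthonormal frame at `x`. -/
def Herm.Orthonormal (H : Herm n r E) {x : X} (b : Module.Basis (Fin r) ℂ (E x)) : Prop :=
  ∀ α β, ev (H.h x) (b α) (b β) = if α = β then 1 else 0

variable (E) in
/-- Maps `(v, w, e) ↦ R(v, w) e`. -/
abbrev Curv : Type := ∀ x : X, Tan n x → Tan n x → E x → E x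

variable {n r} in
/-- `Θ = i R` is `i ∑ a_{jkαβ} dz_j ∧ dz̄_k ⊗ e_α* ⊗ e_β` at `x`, in the coordinates `c` and the
frame `b`. -/
def IsCoeff (R : Curv n E) (c : OpenPartialHomeomorph X (Cn n)) {x : X}
    (b : Module.Basis (Fin r) ℂ (E x)) (a : Fin n → Fin n → Fin r → Fin r → ℂ) : Prop :=
  ∀ (v w : Tan n x) (e : E x), Complex.I • R x v w e = Complex.I • ∑ j, ∑ k, ∑ α, ∑ β,
    (a j k α β * (dz n c v j * conj (dz n c w k) - dz n c w j * conj (dz n c v k)) *
      b.repr e α) • b β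

variable [∀ x, IsTopologicalAddGroup (E x)] [∀ x, ContinuousSMul ℝ (E x)]

variable (E) in
/-- Connections on `E`. -/
abbrev Conn : Type := CovariantDerivative 𝓘(ℝ, Cn n) (Cn r) E

variable {n r}

/-- `D_v s` for a tangent vector `v` at `x`. -/
abbrev cov (D : Conn n r E) (s : ∀ x, E x) (x : X) (v : Tan n x) : E x := D s x v

variable [IsManifold 𝓘(ℝ, Cn n) ∞ X]

/-- `D` is a Chern connection of `H`: complex linear, smooth, compatible with `H`, and its
`(0,1)`-part vanishes on local holomorphic sections. -/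
structure IsChern (H : Herm n r E) (D : Conn n r E) : Prop where
  complex : ∀ s x v, SmoothSec n r s x → cov D (Complex.I • s) x v = Complex.I • cov D s x v
  smooth : ∀ s V x, SmoothSec n r s x → SmoothField n V x →
    SmoothSec n r (fun y => cov D s y (V y)) x
  metric : ∀ s t x v, SmoothSec n r s x → SmoothSec n r t x →
    df n (fun y => ev (H.h y) (s y) (t y)) x v =
      ev (H.h x) (cov D s x v) (t x) + ev (H.h x) (s x) (cov D t x v)
  dbar : ∀ s x v, HolSec n r s x → cov D s x v + Complex.I • cov D s x (J n v) = 0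

/-- `R` is the curvature `R(V,W)s = D_V D_W s - D_W D_V s - D_[V,W] s` of `D`. -/
def IsCurv (D : Conn n r E) (R : Curv n E) : Prop :=
  ∀ V W s x, SmoothField n V x → SmoothField n W x → SmoothSec n r s x →
    R x (V x) (W x) (s x) = cov D (fun y => cov D s y (W y)) x (V x) -
      cov D (fun y => cov D s y (V y)) x (W x) - cov D s x (br n V W x)

/-- Strict Griffiths positivity: `∑ a_{jkαβ} ξ_j ξ̄_k v_α v̄_β > 0` at every point, for all nonzero
`ξ ∈ T_x X` and `v ∈ E_x`, where the `a_{jkαβ}` are the coefficients of the curvature of the Chern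
connection in local coordinates and an orthonormal frame. -/
def Herm.Positive (H : Herm n r E) : Prop :=
  ∃ (D : Conn n r E) (R : Curv n E), IsChern H D ∧ IsCurv D R ∧
    ∀ x, ∀ c ∈ atlas (Cn n) X, x ∈ c.source →
      ∀ (b : Module.Basis (Fin r) ℂ (E x)) a, H.Orthonormal b → IsCoeff R c b a →
      ∀ ξ : Tan n x, ξ ≠ 0 → ∀ v : E x, v ≠ 0 →
        0 < (∑ j, ∑ k, ∑ α, ∑ β,
          a j k α β * dz n c ξ j * conj (dz n c ξ k) * b.repr v α * conj (b.repr v β)).re

/-- The Chern connection exists and is unique, it has exactly one curvature, orthonormal frames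
exist and the coefficients exist and are unique. -/
def Herm.WellDefined (H : Herm n r E) : Prop :=
  (∀ x, ∃ b : Module.Basis (Fin r) ℂ (E x), H.Orthonormal b) ∧
  ∃ D, IsChern H D ∧
    (∀ D', IsChern H D' → ∀ s x v, SmoothSec n r s x → cov D' s x v = cov D s x v) ∧
    ∃ R, IsCurv D R ∧ (∀ D' R', IsChern H D' → IsCurv D' R' → R' = R) ∧
      ∀ x, ∀ c ∈ atlas (Cn n) X, x ∈ c.source →
        ∀ b : Module.Basis (Fin r) ℂ (E x), ∃! a, IsCoeff R c b a

/-- On a holomorphic vector bundle of rank `r` on a compact complex manifold of dimension `n` there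
are smooth Hermitian metrics, and for each the objects in the question exist and are unique. -/
def AllWellDefined (n r : ℕ) : Prop :=
  ∀ (X : Type) [TopologicalSpace X] [ChartedSpace (Cn n) X] [IsManifold 𝓘(ℂ, Cn n) ω X]
    [IsManifold 𝓘(ℝ, Cn n) ∞ X] [T2Space X] [CompactSpace X]
    (E : X → Type) [∀ x, AddCommGroup (E x)] [∀ x, Module ℂ (E x)] [∀ x, TopologicalSpace (E x)]
    [∀ x, IsTopologicalAddGroup (E x)] [∀ x, ContinuousSMul ℝ (E x)]
    [TopologicalSpace (TotalSpace (Cn r) E)] [FiberBundle (Cn r) E] [VectorBundle ℂ (Cn r) E]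
    [ContMDiffVectorBundle ω (Cn r) E 𝓘(ℂ, Cn n)],
    Nonempty (Herm n r E) ∧ ∀ H : Herm n r E, H.WellDefined

/-- Griffiths' conjecture for varieties of dimension `n` and bundles of rank `r`. -/
def Griffiths (n r : ℕ) : Prop :=
  ∀ (X : Type) [TopologicalSpace X] [ChartedSpace (Cn n) X] [IsManifold 𝓘(ℂ, Cn n) ω X]
    [IsManifold 𝓘(ℝ, Cn n) ∞ X] [T2Space X] [CompactSpace X] [ConnectedSpace X],
    IsSmoothProjective n X →
    ∀ (E : X → Type) [∀ x, AddCommGroup (E x)] [∀ x, Module ℂ (E x)] [∀ x, TopologicalSpace (E x)]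
      [∀ x, IsTopologicalAddGroup (E x)] [∀ x, ContinuousSMul ℝ (E x)]
      [TopologicalSpace (TotalSpace (Cn r) E)] [FiberBundle (Cn r) E] [VectorBundle ℂ (Cn r) E]
      [ContMDiffVectorBundle ω (Cn r) E 𝓘(ℂ, Cn n)],
      IsAmple n r E → ∃ H : Herm n r E, H.Positive

end Vale.Agent.P296C
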