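import Vale.Agent.P296C80.Conn
import Mathlib.Geometry.Manifold.PartitionOfUnity
import Mathlib.Analysis.InnerProductSpace.PiL2

/-! Existence of the Chern connection, of metrics and of orthonormal frames. -/

set_option linter.all false

noncomputable section

namespace Vale.Agent.P296C

open Bundle Matrix Filter Set Complex VectorField Vale.Agent.P296Z
open scoped Manifold ContDiff Topology ComplexConjugate ComplexOrder

variable {n r : ℕ} {X : Type} [TopologicalSpace X] [ChartedSpace (Cn n) X]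
  {E : X → Type} [∀ x, AddCommGroup (E x)] [∀ x, Module ℂ (E x)]
  [∀ x, TopologicalSpace (E x)] [TopologicalSpace (TotalSpace (Cn r) E)] [FiberBundle (Cn r) E]
  [VectorBundle ℂ (Cn r) E]

/-- `nab` as a real linear map of the direction -/
def nabL (G : Cn n → Mat r) (s : Cn n → Cn r) (z : Cn n) : Cn n →L[ℝ] Cn r :=
  fderiv ℝ s z + ∑ j, (ContinuousLinearMap.proj j : Cn n →L[ℝ] ℂ).smulRight
    (connection G (Pi.single j 1) z *ᵥ s z)

theorem nabL_apply (G : Cn n → Mat r) (s : Cn n → Cn r) (z u : Cn n) :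
    nabL G s z u = nab G u s z := by
  rw [nab, conn_sum' G u, Matrix.sum_mulVec]
  simp [nabL, Matrix.smul_mulVec]

theorem nab_congr {G : Cn n → Mat r} {f g : Cn n → Cn r} {z : Cn n} (u : Cn n)
    (h : f =ᶠ[𝓝 z] g) : nab G u f z = nab G u g z := by
  rw [nab, nab, h.fderiv_eq, h.eq_of_nhds]

theorem nab_smul {G : Cn n → Mat r} {f : Cn n → Cn r} {g : Cn n → ℂ} {z : Cn n} (u : Cn n)
    (hg : DifferentiableAt ℝ g z) (hf : DifferentiableAt ℝ f z) :
    nab G u (fun y => g y • f y) z = g z • nab G u f z + fderiv ℝ g z u • f z := by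
  rw [nab, nab, fderiv_fun_smul hg hf]
  simp only [ContinuousLinearMap.add_apply, ContinuousLinearMap.smul_apply,
    ContinuousLinearMap.smulRight_apply, Matrix.mulVec_smul, smul_add]
  abel

theorem fderiv_form {G : Cn n → Mat r} {U : Set (Cn n)} {z : Cn n} (h : Good G U) (hz : z ∈ U)
    {f g : Cn n → Cn r} (hf : DifferentiableAt ℝ f z) (hg : DifferentiableAt ℝ g z) (u : Cn n) :
    fderiv ℝ (fun y => star (f y) ⬝ᵥ G y *ᵥ g y) z u =
      star (nab G u f z) ⬝ᵥ G z *ᵥ g z + star (f z) ⬝ᵥ G z *ᵥ nab G u g z := by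
  have h1 := diff_mulVec (h.diff hz) hg
  have h2 : ∀ a, HasFDerivAt (fun y => star (f y) a)
      ((conjCLE : ℂ →L[ℝ] ℂ).comp (fderiv ℝ (fun y => f y a) z)) z := fun a =>
    (conjCLE : ℂ →L[ℝ] ℂ).hasFDerivAt.comp z (differentiableAt_pi.1 hf a).hasFDerivAt
  have h3 : fderiv ℝ (fun y => star (f y) ⬝ᵥ G y *ᵥ g y) z u =
      star (fderiv ℝ f z u) ⬝ᵥ G z *ᵥ g z +
        star (f z) ⬝ᵥ fderiv ℝ (fun y => G y *ᵥ g y) z u := by
    simp only [dotProduct]
    rw [fderiv_fun_sum fun a _ => (h2 a).differentiableAt.fun_mul (differentiableAt_pi.1 h1 a),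
      ContinuousLinearMap.sum_apply, ← Finset.sum_add_distrib]
    refine Finset.sum_congr rfl fun a _ => ?_
    rw [fderiv_fun_mul (h2 a).differentiableAt (differentiableAt_pi.1 h1 a), (h2 a).fderiv]
    simp only [ContinuousLinearMap.add_apply, ContinuousLinearMap.smul_apply, smul_eq_mul,
      ContinuousLinearMap.comp_apply, fderiv_apply' hf, fderiv_apply' h1]
    rw [add_comm, mul_comm ((G z *ᵥ g z) a)]
    rfl
  rw [h3, fderiv_mulVec (h.diff hz) hg, h.metric hz, nab, nab, star_add, Matrix.star_mulVec,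
    add_dotProduct, ← Matrix.dotProduct_mulVec]
  simp only [Matrix.add_mulVec, Matrix.mulVec_add, dotProduct_add, Matrix.mulVec_mulVec]
  abel

variable [IsManifold 𝓘(ℝ, Cn n) ∞ X] [ContMDiffVectorBundle ω (Cn r) E 𝓘(ℂ, Cn n)]

section

variable [∀ x, IsTopologicalAddGroup (E x)] [∀ x, ContinuousSMul ℝ (E x)]
  [IsManifold 𝓘(ℂ, Cn n) ω X]

theorem exists_pre (H : Herm n r E) : ∃ D : Conn n r E, Pre H D := by
  haveI := vb_real r E
  let c := fun x : X => chartAt (Cn n) x
  let t := fun x : X => trivializationAt (Cn r) E x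
  have hc : ∀ x, c x ∈ atlas (Cn n) X := chart_mem_atlas (Cn n)
  have hx : ∀ x, x ∈ (c x).source := mem_chart_source (Cn n)
  have ht : ∀ x, x ∈ (t x).baseSet := mem_baseSet_trivializationAt (Cn r) E
  let D : (∀ x, E x) → ∀ x : X, Tan n x →L[ℝ] E x := fun s x =>
    (t x).symmL ℝ x ∘L nabL (GG H (c x) (t x)) (SS (c x) (t x) s) (c x x) ∘L dc (c x) x
  have hD : ∀ s x u, (t x).linearMapAt ℂ x (D s x u) =
      nab (GG H (c x) (t x)) (dc (c x) x u) (SS (c x) (t x) s) (c x x) := by
    intro s x u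
    rw [← nabL_apply]
    refine (congrArg _ ((t x).symmL_apply (ht x) _)).trans ((t x).linearMapAt_symm (ht x) _)
  have hL : ∀ (g : X → ℂ) s x u, MDifferentiableAt 𝓘(ℝ, Cn n) 𝓘(ℝ, ℂ) g x → MD n r s x →
      D (fun y => g y • s y) x u = g x • D s x u + mvfderiv 𝓘(ℝ, Cn n) g x u • s x := by
    intro g s x u hg hs
    refine lin_inj (ht x) ?_
    rw [hD, nab_congr _ (SS_smul (hx x) (ht x) g s), nab_smul _ ((md_iff (hc x) (hx x)).1 hg)
      ((mds_iff (hc x) (hx x) (ht x)).1 hs), map_add, map_smul, map_smul, hD, SS_at (hx x) (ht x),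
      mv_chart (hc x) (hx x) hg, (c x).left_inv (hx x)]
  refine ⟨⟨D, fun {s s' x} hs hs' _ => ?_, fun {s g x} hs hg _ => ?_⟩, fun s x u hs => ?_,
    fun s s' x u hs hs' => ?_, fun s x u hs => ?_⟩
  · ext u
    refine lin_inj (ht x) ?_
    rw [ContinuousLinearMap.add_apply, map_add, hD, hD, hD, nab_congr _ (SS_add (hx x) (ht x) s s'),
      nab, nab, nab, fderiv_fun_add ((mds_iff (hc x) (hx x) (ht x)).1 hs)
        ((mds_iff (hc x) (hx x) (ht x)).1 hs'), Matrix.mulVec_add, ContinuousLinearMap.add_apply]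
    abel
  · ext u
    obtain ⟨h1, h2⟩ := mv_clm ofRealCLM hg
    have h3 := hL (fun y => ofRealCLM (g y)) s x u h1 hs
    rw [h2] at h3
    exact h3
  · have h3 := hL (fun _ => I) s x u mdifferentiableAt_const hs.md
    rw [mvfderiv_const, ContinuousLinearMap.zero_apply, zero_smul, add_zero] at h3
    exact h3
  · change _ = H.h x (D s x u) _ + H.h x _ (D s' x u)
    rw [mv_chart (hc x) (hx x) ((H.smooth _ _ x hs hs').mdifferentiableAt (by simp)),
      h_coord H.h (ht x), h_coord H.h (ht x) (s x), hD, hD, ← SS_at (hx x) (ht x),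
      ← SS_at (hx x) (ht x), ← GG_at H (hx x), ← fderiv_form (good H (hc x)) (mem_dom (hx x) (ht x))
        ((mds_iff (hc x) (hx x) (ht x)).1 hs.md) ((mds_iff (hc x) (hx x) (ht x)).1 hs'.md)]
    congr 1
    refine Filter.EventuallyEq.fderiv_eq ?_
    filter_upwards [near_dom (hx x) (ht x)] with z hz
    rw [ev, h_coord H.h hz.2, (t x).coe_linearMapAt_of_mem hz.2]
    rfl
  · change D s x u + I • D s x (J n u) = 0
    have h1 : MDifferentiableAt 𝓘(ℂ, Cn n) 𝓘(ℂ, Cn r) (fun y => (t x ⟨y, s y⟩).2) x :=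
      (mdifferentiableAt_section _ _).1 hs.self_of_nhds
    obtain ⟨f', hf'⟩ : ∃ f' : Cn n →L[ℂ] Cn r,
      HasMFDerivAt 𝓘(ℂ, Cn n) 𝓘(ℂ, Cn r) (fun y => (t x ⟨y, s y⟩).2) x f' := ⟨_, h1.hasMFDerivAt⟩
    have h2 := (has_real hf').mdifferentiableAt
    have h3 := mv_J h1 u
    rw [mv_chart (hc x) (hx x) h2, mv_chart (hc x) (hx x) h2] at h3
    refine lin_inj (ht x) ?_
    rw [map_add, map_smul, hD, hD, map_zero, nab, nab]
    erw [h3]
    rw [dc_J (hc x) (hx x), conn_smul, Matrix.smul_mulVec, ← smul_add, smul_smul, I_mul_I,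
      neg_one_smul]
    exact add_neg_cancel _

end

theorem on_basis {V : Type} [AddCommGroup V] [Module ℂ V] (e : V ≃ₗ[ℂ] Cn r)
    (h : V →ₗ⋆[ℂ] V →ₗ[ℂ] ℂ) (herm : ∀ v w, h w v = conj (h v w))
    (pos : ∀ v, v ≠ 0 → 0 < (h v v).re) :
    ∃ b : Module.Basis (Fin r) ℂ V, ∀ α β, h (b α) (b β) = if α = β then 1 else 0 := by
  let core : InnerProductSpace.Core ℂ V :=
    { inner := fun v w => h v w
      conj_inner_symm := fun v w => (herm _ _).symm
      re_inner_nonneg := fun v => by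
        by_cases hv : v = 0
        · simp [hv]
        · exact (pos _ hv).le
      add_left := fun v w u => by rw [map_add, LinearMap.add_apply]
      smul_left := fun v w a => by rw [map_smulₛₗ, LinearMap.smul_apply, smul_eq_mul]
      definite := fun v hv => by
        by_contra h0
        have h1 := pos v h0
        rw [show h v v = 0 from hv] at h1
        exact lt_irrefl _ h1 }
  letI := core.toNormedAddCommGroup
  letI : InnerProductSpace ℂ V := InnerProductSpace.ofCore core.toCore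
  haveI : FiniteDimensional ℂ V := e.symm.finiteDimensional
  have hr : Module.finrank ℂ V = r := e.finrank_eq.trans (Module.finrank_fin_fun ℂ)
  let b := (stdOrthonormalBasis ℂ V).reindex (finCongr hr)
  exact ⟨b.toBasis, fun α β => orthonormal_iff_ite.1 b.orthonormal α β⟩

theorem exists_orthonormal (H : Herm n r E) (x : X) :
    ∃ b : Module.Basis (Fin r) ℂ (E x), H.Orthonormal b :=
  on_basis ((trivializationAt (Cn r) E x).linearEquivAt ℂ x
    (mem_baseSet_trivializationAt (Cn r) E x)) (H.h x) (H.herm x) (H.pos x)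

theorem nonempty_herm [T2Space X] [CompactSpace X] : Nonempty (Herm n r E) := by
  let t := fun x : X => trivializationAt (Cn r) E x
  obtain ⟨ρ, hρ⟩ := SmoothPartitionOfUnity.exists_isSubordinate 𝓘(ℝ, Cn n) isClosed_univ
    (fun x : X => (t x).baseSet) (fun x => (t x).open_baseSet)
    (fun x _ => mem_iUnion_of_mem x (mem_baseSet_trivializationAt (Cn r) E x))
  let F : X → ∀ y, E y →ₗ⋆[ℂ] E y →ₗ[ℂ] ℂ := fun i y =>
    LinearMap.mk₂'ₛₗ (starRingEnd ℂ) (RingHom.id ℂ)
      (fun v w => star ((t i).linearMapAt ℂ y v) ⬝ᵥ (t i).linearMapAt ℂ y w)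
      (fun v v' w => by rw [map_add, star_add, add_dotProduct])
      (fun a v w => by rw [map_smul, star_smul, smul_dotProduct]; rfl)
      (fun v w w' => by rw [map_add, dotProduct_add])
      (fun a v w => by rw [map_smul, dotProduct_smul]; rfl)
  have hF : ∀ i y v w, F i y v w = star ((t i).linearMapAt ℂ y v) ⬝ᵥ (t i).linearMapAt ℂ y w :=
    fun _ _ _ _ => rfl
  have hs : ∀ y v w, (∑ i ∈ ρ.finsupport y, (ρ i y : ℂ) • F i y) v w =
      ∑ i ∈ ρ.finsupport y, ρ i y • F i y v w := by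
    intro y v w
    simp only [LinearMap.sum_apply, LinearMap.smul_apply, Complex.coe_smul]
  refine ⟨⟨fun y => ∑ i ∈ ρ.finsupport y, (ρ i y : ℂ) • F i y, fun y v w => ?_, fun y v hv => ?_,
    fun s s' x h h' => ?_⟩⟩
  · rw [ev, ev, hs, hs, map_sum]
    refine Finset.sum_congr rfl fun i _ => ?_
    rw [hF, hF, Complex.real_smul, Complex.real_smul, map_mul, conj_ofReal, star_dotProduct]
    rfl
  · rw [ev, hs, Complex.re_sum]
    obtain ⟨i, hi⟩ := ρ.exists_pos_of_mem (mem_univ y)
    refine Finset.sum_pos' (fun j _ => ?_) ⟨i, (ρ.mem_finsupport y).2 hi.ne', ?_⟩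
    · rw [Complex.smul_re]
      exact mul_nonneg (ρ.nonneg j y) (Complex.nonneg_iff.1 (dotProduct_star_self_nonneg _)).1
    · rw [Complex.smul_re]
      refine mul_pos hi (Complex.pos_iff.1 (Matrix.dotProduct_star_self_pos_iff.2 fun h0 => hv ?_)).1
      exact lin_inj (hρ i (subset_tsupport _ hi.ne')) (h0.trans (map_zero _).symm)
  · have e : (fun y => (∑ i ∈ ρ.finsupport y, (ρ i y : ℂ) • F i y) (s y) (s' y)) =
        fun y => ∑ᶠ i, ρ i y • F i y (s y) (s' y) := funext fun y => by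
      rw [hs]
      exact ρ.sum_finsupport_smul_eq_finsum y fun i y => F i y (s y) (s' y)
    simp only [ev]
    rw [e]
    refine ρ.contMDiffAt_finsum fun i hi => ?_
    have hc := chart_mem_atlas (Cn n) x
    have hx := mem_chart_source (Cn n) x
    have ht := hρ i hi
    have h1 := contDiffAt_pi.1 ((sm_iff hc hx ht).1 h)
    have h2 := contDiffAt_pi.1 ((sm_iff hc hx ht).1 h')
    refine (cm_iff hc hx).2 ((ContDiffAt.sum (s := Finset.univ) fun a _ =>
      ((conjCLE.contDiff.contDiffAt.comp _ (h1 a)).mul (h2 a))).congr_of_eventuallyEq ?_)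
    filter_upwards [near_dom hx ht] with z hz
    rw [hF, (t i).coe_linearMapAt_of_mem hz.2]
    rfl

end Vale.Agent.P296C
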