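import Vale.Agent.P296C80.Main
import Vale.Agent.P296C80.St

/-! From the definitions over `ℂⁿ` to the definitions over a general model space. -/

set_option linter.all false

noncomputable section

namespace Vale.Agent.P296S

open Bundle
open scoped Manifold ContDiff

variable {n r : ℕ} {X : Type} [TopologicalSpace X] [ChartedSpace (Cn n) X]
  {E : X → Type} [∀ x, AddCommGroup (E x)] [∀ x, Module ℂ (E x)]
  [∀ x, TopologicalSpace (E x)] [TopologicalSpace (TotalSpace (Cn r) E)] [FiberBundle (Cn r) E]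

/-- the same metric -/
def Herm.toC (H : Herm (Cn n) (Cn r) E) : P296C.Herm n r E := ⟨H.h, H.herm, H.pos, H.smooth⟩

/-- coordinates of a linear form -/
def dualCo (r : ℕ) : StrongDual ℂ (Cn r) →L[ℂ] Cn r :=
  ContinuousLinearMap.pi fun a => ContinuousLinearMap.apply ℂ ℂ (Pi.single a 1 : Cn r)

theorem dualCo_sum (u : StrongDual ℂ (Cn r)) (v : Cn r) : u v = ∑ a, dualCo r u a * v a := by
  conv_lhs => rw [P296C.eq_sum_single v]
  simp only [map_sum, map_smul, smul_eq_mul]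
  exact Finset.sum_congr rfl fun a _ => mul_comm _ _

theorem dualCo_inj : Function.Injective (dualCo r) := fun u w h => by
  ext1 v
  rw [dualCo_sum, dualCo_sum, h]

theorem ample_of [VectorBundle ℂ (Cn r) E] (h : P296Z.IsAmple n r E) : IsAmple (Cn n) (Cn r) E := by
  obtain ⟨m, N, s, Φ, h1, h2, h3, h4, h5⟩ := h
  refine ⟨m, Cn (N + 1), _, _, s, Φ, inferInstance, h1, h2, h3, h4, fun c hc t _ => ?_⟩
  obtain ⟨h6, h7⟩ := h5 c hc t
  let L := (ContinuousLinearMap.id ℂ (Cn n)).prodMap (dualCo r)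
  have e : loc s c t = P296Z.loc s c t ∘ L := by
    funext p
    refine congrArg (s (c.symm p.1)) (LinearMap.ext fun v => ?_)
    exact (dualCo_sum _ _).trans (P296Z.covec_apply _ v).symm
  have hne : ∀ u : StrongDual ℂ (Cn r), u ≠ 0 → dualCo r u ≠ 0 := fun u hu h0 =>
    hu (dualCo_inj (h0.trans (map_zero _).symm))
  refine ⟨e ▸ h6.comp L.differentiableOn fun p hp => ⟨hp.1, hne _ hp.2⟩,
    fun z hz u hu ξ w a h8 => ?_⟩
  have h9 : DifferentiableAt ℂ (P296Z.loc s c t) (L (z, u)) :=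
    h6.differentiableAt (((P296Z.isOpen_dom c t).prod isOpen_compl_singleton).mem_nhds
      ⟨hz, hne u hu⟩)
  rw [e, (h9.hasFDerivAt.comp (z, u) L.hasFDerivAt).fderiv] at h8
  obtain ⟨h10, b, hb⟩ := h7 z hz _ (hne u hu) ξ (dualCo r w) a h8
  exact ⟨h10, b, dualCo_inj (hb.trans (map_smul _ _ _).symm)⟩

variable [∀ x, IsTopologicalAddGroup (E x)] [∀ x, ContinuousSMul ℝ (E x)]
  [IsManifold 𝓘(ℝ, Cn n) ∞ X]

theorem chern_iff {H : Herm (Cn n) (Cn r) E} {D : Conn (Cn n) (Cn r) E} :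
    IsChern H D ↔ P296C.IsChern H.toC D :=
  ⟨fun h => ⟨h.1, h.2, h.3, h.4⟩, fun h => ⟨h.1, h.2, h.3, h.4⟩⟩

theorem main : (∀ n r : ℕ, AllWellDefined (Cn r) r fun z : Cn n => z) ∧ (¬ ∀ n r : ℕ, Q1 n r) ∧
    ∀ r : ℕ, 2 ≤ r → ¬ Q1 2 r := by
  have key : ∀ n r, Q1 n r → P296C.Griffiths n r := by
    intro n r h X _ _ _ _ _ _ _ hX E _ _ _ _ _ _ _ _ _ hE
    obtain ⟨H, D, R, h1, h2, h3⟩ := h X hX E (ample_of hE)
    exact ⟨H.toC, D, R, chern_iff.1 h1, h2, h3⟩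
  refine ⟨fun n r X _ _ _ _ _ _ E _ _ _ _ _ _ _ _ _ => ?_,
    fun h => P296C.main.2.1 fun n r => key n r (h n r),
    fun r hr h => P296C.main.2.2 r hr (key 2 r h)⟩
  obtain ⟨⟨H0⟩, h⟩ := P296C.main.1 n r X E
  refine ⟨⟨⟨H0.h, H0.herm, H0.pos, H0.smooth⟩⟩, fun H => ?_⟩
  obtain ⟨h1, D, h2, h3, R, h4, h5, h6⟩ := h H.toC
  exact ⟨h1, D, chern_iff.2 h2, fun D' h' => h3 D' (chern_iff.1 h'), R, h4,
    fun D' R' h' => h5 D' R' (chern_iff.1 h'), h6⟩

end Vale.Agent.P296S
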