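import Vale.Agent.P296C80.Ex
import Vale.Agent.P296Z.Core

/-! The curvature, its coefficients, and the counterexample. -/

set_option linter.all false

noncomputable section

namespace Vale.Agent.P296C

open Bundle Matrix Filter Set Complex VectorField Vale.Agent.P296Z
open scoped Manifold ContDiff Topology ComplexConjugate ComplexOrder

variable {n r : ℕ} {X : Type} [TopologicalSpace X] [ChartedSpace (Cn n) X]
  {E : X → Type} [∀ x, AddCommGroup (E x)] [∀ x, Module ℂ (E x)]
  [∀ x, TopologicalSpace (E x)] [TopologicalSpace (TotalSpace (Cn r) E)] [FiberBundle (Cn r) E]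
  [VectorBundle ℂ (Cn r) E]
  {c : OpenPartialHomeomorph X (Cn n)} {x : X}

theorem lin_expand {V : Type} [AddCommGroup V] [Module ℂ V] (b : Module.Basis (Fin r) ℂ V)
    (T : V →ₗ[ℂ] V) (e : V) : T e = ∑ α, ∑ β, (b.repr (T (b α)) β * b.repr e α) • b β := by
  conv_lhs => rw [← b.sum_repr e, map_sum]
  refine Finset.sum_congr rfl fun α _ => ?_
  rw [map_smul]
  conv_lhs => rw [← b.sum_repr (T (b α)), Finset.smul_sum]
  exact Finset.sum_congr rfl fun β _ => by rw [smul_smul, mul_comm]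

theorem IsCoeff.eval {R : Curv n E} {b : Module.Basis (Fin r) ℂ (E x)}
    {a : Fin n → Fin n → Fin r → Fin r → ℂ} (h : IsCoeff R c b a) (v w : Tan n x) (α β : Fin r) :
    b.repr (R x v w (b α)) β =
      ∑ j, ∑ k, a j k α β * (dz n c v j * conj (dz n c w k) - dz n c w j * conj (dz n c v k)) := by
  rw [smul_right_injective _ I_ne_zero (h v w (b α))]
  simp [Finsupp.single_apply, Finsupp.finset_sum_apply]

/-- the components `Θ_jk` of the curvature -/
def Th (H : Herm n r E) (c : OpenPartialHomeomorph X (Cn n))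
    (t : Trivialization (Cn r) (π (Cn r) E)) [MemTrivializationAtlas t] (x : X) (j k : Fin n) :
    E x →ₗ[ℂ] E x :=
  t.symmₗ ℂ x ∘ₗ Matrix.toLin' (PP (GG H c t) (Pi.single k 1) (Pi.single j 1) (c x)) ∘ₗ
    t.linearMapAt ℂ x

variable {t : Trivialization (Cn r) (π (Cn r) E)} [MemTrivializationAtlas t]

theorem lin_Th (H : Herm n r E) (ht : x ∈ t.baseSet) (j k : Fin n) (e : E x) :
    t.linearMapAt ℂ x (Th H c t x j k e) =
      PP (GG H c t) (Pi.single k 1) (Pi.single j 1) (c x) *ᵥ t.linearMapAt ℂ x e :=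
  t.linearMapAt_symmₗ ht _

theorem Herm.Orthonormal.repr {H : Herm n r E} {b : Module.Basis (Fin r) ℂ (E x)}
    (h : H.Orthonormal b) (e : E x) (β : Fin r) : H.h x e (b β) = conj (b.repr e β) := by
  conv_lhs => rw [← b.sum_repr e]
  simp only [map_sum, map_smulₛₗ, LinearMap.sum_apply, LinearMap.smul_apply, h _ β, smul_eq_mul]
  simp

variable [IsManifold 𝓘(ℝ, Cn n) ∞ X] [ContMDiffVectorBundle ω (Cn r) E 𝓘(ℂ, Cn n)]

theorem IsCoeff.unique (hc : c ∈ atlas (Cn n) X) (hx : x ∈ c.source) {R : Curv n E}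
    {b : Module.Basis (Fin r) ℂ (E x)} {a a' : Fin n → Fin n → Fin r → Fin r → ℂ}
    (h : IsCoeff R c b a) (h' : IsCoeff R c b a') : a = a' := by
  funext j k α β
  have key : ∀ μ : ℂ, conj μ * a j k α β - μ * a k j α β = conj μ * a' j k α β - μ * a' k j α β := by
    intro μ
    obtain ⟨v, hv⟩ := (dc_bij hc hx).2 (Pi.single j 1)
    obtain ⟨w, hw⟩ := (dc_bij hc hx).2 (Pi.single k μ)
    have h1 := (h.eval v w α β).symm.trans (h'.eval v w α β)
    simp only [dz_eq, hv, hw, Pi.single_apply, apply_ite conj, map_zero, map_one, mul_sub,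
      Finset.sum_sub_distrib, mul_ite, ite_mul, mul_zero, zero_mul, Finset.sum_ite_eq',
      Finset.mem_univ, if_true, mul_one, one_mul] at h1
    linear_combination h1
  have h1 := key 1
  have h2 := key I
  rw [map_one] at h1
  rw [conj_I] at h2
  linear_combination h1 / 2 + I / 2 * h2 +
    (a j k α β + a k j α β - a' j k α β - a' k j α β) / 2 * I_mul_I

/-- the metric with its Gram matrices -/
def toOld (H : Herm n r E) : HermitianMetric n r E where
  h x v w := H.h x v w
  add x v w w' := map_add _ w w'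
  smul x v w a := map_smul _ a w
  herm := H.herm
  pos := H.pos
  smooth c hc t _ a b := (good H hc).sm a b

variable [∀ x, IsTopologicalAddGroup (E x)] [∀ x, ContinuousSMul ℝ (E x)]
  [IsManifold 𝓘(ℂ, Cn n) ω X] {H : Herm n r E} {D : Conn n r E} {R : Curv n E}

theorem Pre.curv_eq (h : Pre H D) (hR : IsCurv D R) (hc : c ∈ atlas (Cn n) X) (hx : x ∈ c.source)
    (ht : x ∈ t.baseSet) (v w : Tan n x) (e : E x) : t.linearMapAt ℂ x (R x v w e) =
      FF (GG H c t) (dc c x v) (dc c x w) (c x) *ᵥ t.linearMapAt ℂ x e := by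
  obtain ⟨V, hV, rfl⟩ := exists_field v
  obtain ⟨W, hW, rfl⟩ := exists_field w
  obtain ⟨s, hs, rfl⟩ := exists_sec (n := n) (r := r) e
  rw [hR V W s x hV hW hs, h.curv hc hx ht hV hW hs]

theorem Pre.exists_curv (h : Pre H D) : ∃ R, IsCurv D R := by
  refine ⟨fun x v w e => (trivializationAt (Cn r) E x).symm x
    (FF (GG H (chartAt (Cn n) x) (trivializationAt (Cn r) E x)) (dc (chartAt (Cn n) x) x v)
      (dc (chartAt (Cn n) x) x w) (chartAt (Cn n) x x) *ᵥ
        (trivializationAt (Cn r) E x).linearMapAt ℂ x e), fun V W s x hV hW hs => ?_⟩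
  have ht := mem_baseSet_trivializationAt (Cn r) E x
  refine lin_inj ht ?_
  rw [Trivialization.linearMapAt_symm _ ht,
    h.curv (chart_mem_atlas _ x) (mem_chart_source _ x) ht hV hW hs]

theorem Pre.coeff (h : Pre H D) (hR : IsCurv D R) (hc : c ∈ atlas (Cn n) X) (hx : x ∈ c.source)
    (ht : x ∈ t.baseSet) (b : Module.Basis (Fin r) ℂ (E x)) :
    IsCoeff R c b fun j k α β => b.repr (Th H c t x j k (b α)) β := by
  intro v w e
  have h1 : R x v w e = ∑ j, ∑ k, (dz n c v j * conj (dz n c w k) -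
      dz n c w j * conj (dz n c v k)) • Th H c t x j k e := by
    refine lin_inj ht ?_
    rw [h.curv_eq hR hc hx ht, FF, (good H hc).PP_sum (mem_dom hx ht) (dc c x v),
      (good H hc).PP_sum (mem_dom hx ht) (dc c x w)]
    simp only [map_sum, map_smul, lin_Th H ht, Matrix.sub_mulVec, Matrix.sum_mulVec,
      Matrix.smul_mulVec, sub_smul, Finset.sum_sub_distrib, dz_eq, map_sub]
  rw [h1]
  congr 1
  refine Finset.sum_congr rfl fun j _ => Finset.sum_congr rfl fun k _ => ?_
  rw [lin_expand b (Th H c t x j k) e, Finset.smul_sum]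
  refine Finset.sum_congr rfl fun α _ => ?_
  rw [Finset.smul_sum]
  refine Finset.sum_congr rfl fun β _ => ?_
  rw [smul_smul]
  congr 1
  ring

theorem wellDefined (H : Herm n r E) : H.WellDefined := by
  obtain ⟨D, hD⟩ := exists_pre H
  obtain ⟨R, hR⟩ := hD.exists_curv
  refine ⟨exists_orthonormal H, D, hD.chern, fun D' h' s x v hs =>
    DFunLike.congr_fun (hD.unique h'.pre hs.md) v, R, hR,
    fun D' R' h' hR' => ?_, fun x c hc hx b => ?_⟩
  · funext x v w e
    have ht := mem_baseSet_trivializationAt (Cn r) E x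
    exact lin_inj ht ((h'.pre.curv_eq hR' (chart_mem_atlas _ x) (mem_chart_source _ x) ht v w
      e).trans (hD.curv_eq hR (chart_mem_atlas _ x) (mem_chart_source _ x) ht v w e).symm)
  · have h1 := hD.coeff hR hc hx (mem_baseSet_trivializationAt (Cn r) E x) b
    exact ⟨_, h1, fun a ha => ha.unique hc hx h1⟩

theorem toOld_pos (h : H.Positive) : (toOld H).GriffithsPositive := by
  obtain ⟨D, R, hD, hR, h⟩ := h
  intro c hc t _ z hz ξ hξ v hv
  obtain ⟨x, hx, rfl⟩ : ∃ x ∈ c.source, z = c x := ⟨_, c.map_target hz.1, (c.right_inv hz.1).symm⟩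
  have ht : x ∈ t.baseSet := c.left_inv hx ▸ hz.2
  obtain ⟨b, hb⟩ := exists_orthonormal H x
  obtain ⟨u, rfl⟩ := (dc_bij hc hx).2 ξ
  obtain ⟨e, rfl⟩ : ∃ e, v = t.linearMapAt ℂ x e := ⟨_, (t.linearMapAt_symm ht v).symm⟩
  refine (h x c hc hx b _ hb (hD.pre.coeff hR hc hx ht b) u (fun h0 => hξ (by rw [h0, map_zero]))
    e (fun h0 => hv (by rw [h0, map_zero]))).trans_eq (congrArg _ ?_)
  change _ = star _ ⬝ᵥ GG H c t (c x) *ᵥ PP (GG H c t) (dc c x u) (dc c x u) (c x) *ᵥ _
  rw [(good H hc).PP_sum (mem_dom hx ht), GG_at H hx]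
  simp only [Matrix.sum_mulVec, Matrix.smul_mulVec, ← lin_Th H ht, ← map_smul, ← map_sum]
  rw [← h_coord H.h ht]
  simp only [map_sum, map_smul, smul_eq_mul]
  refine Finset.sum_congr rfl fun j _ => Finset.sum_congr rfl fun k _ => ?_
  rw [lin_expand b (Th H c t x j k) e]
  simp only [map_sum, map_smul, smul_eq_mul, hb.repr, Finset.mul_sum, dz_eq]
  exact Finset.sum_congr rfl fun α _ => Finset.sum_congr rfl fun β _ => by ring

theorem allWellDefined (n r : ℕ) : AllWellDefined n r :=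
  fun _ _ _ _ _ _ _ _ _ _ _ _ _ _ _ _ _ => ⟨nonempty_herm, wellDefined⟩

theorem real_manifold (n : ℕ) (X : Type) [TopologicalSpace X] [ChartedSpace (Cn n) X]
    [IsManifold 𝓘(ℂ, Cn n) ω X] : IsManifold 𝓘(ℝ, Cn n) ∞ X := by
  refine isManifold_of_contDiffOn _ _ _ fun e e' he he' => ?_
  have h := (HasGroupoid.compatible (G := contDiffGroupoid ω 𝓘(ℂ, Cn n)) he he').1
  exact (ContDiffOn.restrict_scalars ℝ h).of_le le_top

theorem not_griffiths' (s : ℕ) : ¬ Griffiths 2 (2 + s) := by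
  intro h
  refine not_griffiths s fun X _ _ _ _ _ _ hX E _ _ _ _ _ _ _ hE => ?_
  haveI := real_manifold 2 X
  let e := fun x => (trivializationAt (Cn (2 + s)) E x).continuousLinearEquivAt ℂ x
    (mem_baseSet_trivializationAt _ E x)
  haveI : ∀ x, IsTopologicalAddGroup (E x) := fun x =>
    (e x).toHomeomorph.isInducing.topologicalAddGroup (e x).toLinearEquiv.toAddMonoidHom
  haveI : ∀ x, ContinuousSMul ℝ (E x) := fun x =>
    (e x).toHomeomorph.isInducing.continuousSMul continuous_ofReal fun {a v} => (e x).map_smul _ v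
  obtain ⟨H, hH⟩ := h X hX E hE
  exact ⟨toOld H, toOld_pos hH⟩

theorem main : (∀ n r : ℕ, AllWellDefined n r) ∧ (¬ ∀ n r : ℕ, Griffiths n r) ∧
    ∀ r : ℕ, 2 ≤ r → ¬ Griffiths 2 r := by
  refine ⟨allWellDefined, fun h => not_griffiths' 0 (h _ _), fun r hr => ?_⟩
  obtain ⟨s, rfl⟩ := Nat.exists_eq_add_of_le hr
  exact not_griffiths' s

end Vale.Agent.P296C
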